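import Vale.Agent.P011.H505.WangB
import Vale.Agent.P011.W.Nrd
import Vale.Agent.P011.H699.Odd.Frame

/-!
# The reduced norm as a homomorphism of monoids
-/

namespace Vale.Agent.P011.H327.TN

open Module Polynomial
open Vale.Agent.P011.W (HasNrd deg_pos exists_maxfield hasNrd_iff)
open Vale.Agent.P011.H505.Wang (hasNrd_norm)
open Vale.Agent.P011.H699.Odd (Rn)

section

variable {K D : Type} [Field K] [Infinite K] [DivisionRing D] [Algebra K D]
  [FiniteDimensional K D] [Algebra.IsCentral K D] {n : ℕ}

/-- Every element has a reduced norm. -/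
theorem exists_hasNrd (hdeg : finrank K D = n ^ 2) (w : D) : ∃ ν : K, HasNrd K n w ν := by
  obtain ⟨L, _, _, _, j, u, hL, rfl⟩ := exists_maxfield hdeg w
  exact ⟨_, hasNrd_norm hdeg hL j u⟩

omit [Infinite K] [FiniteDimensional K D] [Algebra.IsCentral K D] in
theorem hasNrd_star [StarRing K] [StarRing D]
    (hss : ∀ c : K, star (algebraMap K D c) = algebraMap K D (star c))
    {x : D} {ν : K} (h : HasNrd K n x ν) : HasNrd K n (star x) (star ν) := by
  intro Ω _ _ f
  let g0 : D →+* Matrix (Fin n) (Fin n) Ω :=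
    { toFun := fun y => (f (star y)).transpose
      map_one' := by rw [star_one, map_one, Matrix.transpose_one]
      map_mul' := fun y z => by rw [star_mul, map_mul, Matrix.transpose_mul]
      map_zero' := by rw [star_zero, map_zero, Matrix.transpose_zero]
      map_add' := fun y z => by rw [star_add, map_add, Matrix.transpose_add] }
  have h1 := (hasNrd_iff.mp h) Ω ((algebraMap K Ω).comp (starRingEnd K)) g0 (fun c => by
    change (f (star (algebraMap K D c))).transpose = _
    rw [hss, AlgHom.commutes]
    change (Matrix.scalar (Fin n) (algebraMap K Ω (star c))).transpose = _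
    simp [starRingEnd_apply])
  rw [← Matrix.det_transpose]
  exact h1

/-- **The reduced norm.** -/
theorem exists_rn [StarRing K] [StarRing D] (hdeg : finrank K D = n ^ 2)
    (hss : ∀ c : K, star (algebraMap K D c) = algebraMap K D (star c)) :
    ∃ N : D →* K, Rn n N ∧ (∀ x, HasNrd K n x (N x)) ∧
      ∀ (Ω : Type) [Field Ω] [Algebra K Ω] (f : D →ₐ[K] Matrix (Fin n) (Fin n) Ω) (x : D),
        (f x).det = algebraMap K Ω (N x) := by
  choose N0 hN0 using fun w : D => exists_hasNrd (K := K) (D := D) hdeg w
  have huniq : ∀ (x : D) (y : K), HasNrd K n x y → N0 x = y := fun x y h =>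
    HasNrd.unique hdeg (hN0 x) h
  let N : D →* K :=
    { toFun := N0
      map_one' := huniq 1 1 (fun Ω _ _ f => by rw [map_one, Matrix.det_one, map_one])
      map_mul' := fun x y => huniq _ _ ((hN0 x).mul (hN0 y)) }
  refine ⟨N, ⟨hss, fun x => huniq _ _ (hasNrd_star hss (hN0 x)), fun a => huniq _ _ ?_,
    fun E _ _ φ y hE => huniq _ _ (hasNrd_norm hdeg hE φ y)⟩, hN0,
    fun Ω _ _ f x => hN0 x Ω f⟩
  intro Ω _ _ f
  rw [AlgHom.commutes]
  change (Matrix.scalar (Fin n) (algebraMap K Ω a)).det = _
  rw [Matrix.scalar_apply, Matrix.det_diagonal, Finset.prod_const, Finset.card_univ,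
    Fintype.card_fin, map_pow]

end

end Vale.Agent.P011.H327.TN
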