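import Vale.Agent.P011.H327.SplitHom
import Vale.Agent.P011.H271.PmF

/-!
# Totally split composita at the places of a function field
-/

namespace Vale.Agent.P011.H327.SplitHom

open IntermediateField Vale.Agent.P011.H738 Vale.Agent.P011.H271.S3

/-- Field-general form: every element of `M` has a minimal polynomial over `R` which splits. -/
theorem splits_of_splits {K R M C C' : Type*} [Field K] [Field R] [Field M] [Field C]
    [Field C'] [Algebra K R] [Algebra R M] [Algebra K M] [IsScalarTower K R M] [Algebra R C]
    [Algebra K C'] (j : C' →+* C)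
    (hj : ∀ x : K, j (algebraMap K C' x) = algebraMap R C (algebraMap K R x))
    (S : Set M) (hS : adjoin R S = ⊤)
    (hsp : ∀ s ∈ S, IsIntegral K s ∧ ((minpoly K s).map (algebraMap K C')).Splits) (x : M) :
    ((minpoly R x).map (algebraMap R C)).Splits := by
  refine splits_of_mem_adjoin R M (S := S) ?_ (hS ▸ mem_top)
  intro s hs
  obtain ⟨h2, h3⟩ := hsp s hs
  refine ⟨h2.tower_top, ?_⟩
  have h4 : minpoly R s ∣ (minpoly K s).map (algebraMap K R) :=
    minpoly.dvd_map_of_isScalarTower K R s
  have h5 : (((minpoly K s).map (algebraMap K R)).map (algebraMap R C)).Splits := by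
    have h6 := h3.map j
    rw [Polynomial.map_map] at h6 ⊢
    have h7 : j.comp (algebraMap K C') = (algebraMap R C).comp (algebraMap K R) :=
      RingHom.ext hj
    rwa [h7] at h6
  have h8 : ((minpoly K s).map (algebraMap K R)).map (algebraMap R C) ≠ 0 := by
    rw [Polynomial.map_map]
    exact Polynomial.map_ne_zero (minpoly.ne_zero h2)
  exact h5.of_dvd h8 (Polynomial.map_dvd _ h4)

/-- Place form. -/
theorem exists_algHom_place {K R M : Type} [Field K] [Field R] [Field M] [Algebra K R]
    [Algebra R M] [Algebra K M] [IsScalarTower K R M] {W : Place K} {w : Place R} (h : Ab w W)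
    (S : Set M) (hS : adjoin R S = ⊤)
    (hsp : ∀ s ∈ S, IsIntegral K s ∧ ((minpoly K s).map (algebraMap K W.comp)).Splits) :
    (∀ x : M, ((minpoly R x).map (algebraMap R w.comp)).Splits) ∧
      Nonempty (M →ₐ[R] w.comp) := by
  obtain ⟨c, hc, h1⟩ := h
  obtain ⟨φ, hφ⟩ := Vale.Agent.P011.Hey.H63.exists_compHom W w hc h1
  exact ⟨splits_of_splits φ hφ S hS hsp, exists_algHom_of_splits φ hφ S hS hsp⟩

end Vale.Agent.P011.H327.SplitHom
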