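import Vale.Agent.P011.H327.Tower

/-!
# Towers of cyclic steps of prime degree over a field with the roots of unity
-/

namespace Vale.Agent.P011.H327.Tower

open Module IntermediateField

/-- A subgroup of order `p ^ f` fixes the `p`-th roots of unity. -/
theorem fix_root {K L : Type*} [Field K] [Field L] [Algebra K L] (p : ℕ) [hp : Fact p.Prime]
    (f : ℕ) (Q : Subgroup Gal(L/K)) (hQ : Nat.card Q = p ^ f) {z : L}
    (hz : IsPrimitiveRoot z p) : z ∈ fixedField Q := by
  rw [mem_fixedField_iff]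
  intro σ hσ
  have h0 : NeZero p := ⟨hp.out.ne_zero⟩
  have h1 : σ ^ (p ^ f) = 1 := by
    have h2 : (⟨σ, hσ⟩ : Q) ^ (Nat.card Q) = 1 := pow_card_eq_one'
    rw [hQ] at h2
    exact congrArg Subtype.val h2
  set a : (ZMod p)ˣ := hz.autToPow K σ with ha
  have h3 : a ^ (p ^ f) = 1 := by
    rw [ha, ← map_pow, h1, map_one]
  have h4 : a ^ (p - 1) = 1 := ZMod.units_pow_card_sub_one_eq_one p a
  have h5 : Nat.Coprime (p ^ f) (p - 1) := by
    apply Nat.Coprime.pow_left
    rw [hp.out.coprime_iff_not_dvd]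
    intro h
    have := hp.out.two_le
    exact absurd (Nat.le_of_dvd (by omega) h) (by omega)
  have h6 : a = 1 := by
    have h7 : orderOf a ∣ Nat.gcd (p ^ f) (p - 1) :=
      Nat.dvd_gcd (orderOf_dvd_of_pow_eq_one h3) (orderOf_dvd_of_pow_eq_one h4)
    rw [h5, Nat.dvd_one, orderOf_eq_one_iff] at h7
    exact h7
  have h8 := hz.autToPow_spec K σ
  rw [← ha, h6] at h8
  have h9 : ((1 : (ZMod p)ˣ) : ZMod p).val = 1 := by
    rw [Units.val_one]
    have : Fact (1 < p) := ⟨hp.out.one_lt⟩
    exact ZMod.val_one p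
  rw [h9, pow_one] at h8
  exact h8.symm

/-- The chain inside a finite Galois extension. -/
theorem chainZ {K L : Type*} [Field K] [Field L] [Algebra K L] [FiniteDimensional K L]
    [IsGalois K L] (p : ℕ) [hp : Fact p.Prime] :
    ∃ (f : ℕ) (R : ℕ → IntermediateField K L), Monotone R ∧ ¬ p ∣ finrank K (R 0) ∧
      R f = ⊤ ∧ p ^ f ∣ Nat.card Gal(L/K) ∧ (∀ z : L, IsPrimitiveRoot z p → z ∈ R 0) ∧
      ∀ i < f, ∀ h : R i ≤ R (i + 1),
        IsGalois (R i) (extendScalars h) ∧ finrank (R i) (extendScalars h) = p := by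
  classical
  set G := Gal(L/K) with hG
  have hG0 : Nat.card G ≠ 0 := Nat.card_pos.ne'
  set f := (Nat.card G).factorization p with hf
  have hfd : p ^ f ∣ Nat.card G := Nat.ordProj_dvd _ _
  obtain ⟨Q, hQm, hQ0, hQc⟩ := exists_subgroup_chain (G := G) p f hfd
  have hfin : ∀ j ≤ f, finrank (fixedField (Q j)) L = p ^ j := by
    intro j hj
    rw [finrank_fixedField_eq_card, hQc j hj]
  refine ⟨f, fun i => fixedField (Q (f - i)), ?_, ?_, ?_, hfd, ?_, ?_⟩
  · intro i j hij
    exact fixedField_antitone (hQm (Nat.sub_le_sub_left hij f))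
  · intro hd
    have h1 : finrank K (fixedField (Q (f - 0))) * finrank (fixedField (Q (f - 0))) L
        = finrank K L := finrank_mul_finrank K _ L
    rw [hfin _ (Nat.sub_le _ _), Nat.sub_zero, ← IsGalois.card_aut_eq_finrank K L] at h1
    have hd' : p ∣ finrank K (fixedField (Q f)) := by simpa only [Nat.sub_zero] using hd
    have h2 : p ^ (f + 1) ∣ Nat.card G := by
      rw [← h1, pow_succ, mul_comm]
      exact Nat.mul_dvd_mul hd' dvd_rfl
    exact Nat.pow_succ_factorization_not_dvd hG0 hp.out h2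
  · show fixedField (Q (f - f)) = ⊤
    rw [Nat.sub_self, hQ0, fixedField_bot]
  · intro z hz
    show z ∈ fixedField (Q (f - 0))
    rw [Nat.sub_zero]
    exact fix_root p f (Q f) (hQc f le_rfl) hz
  · intro i hi h
    refine isGalois_of_finrank p (f - (i + 1)) (extendScalars h) ?_ ?_
    · show finrank (fixedField (Q (f - i))) L = _
      rw [hfin _ (Nat.sub_le _ _)]
      congr 1; omega
    · exact hfin (f - (i + 1)) (Nat.sub_le _ _)

/-- The tower over the normal closure of `E` inside a normal extension; the base field contains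
the `p`-th roots of unity which lie in the normal closure. -/
theorem exists_tower' {K Ω : Type*} [Field K] [Field Ω] [Algebra K Ω] [Normal K Ω]
    (E : IntermediateField K Ω) [FiniteDimensional K E] [Algebra.IsSeparable K E]
    (p : ℕ) [hp : Fact p.Prime] :
    ∃ (f : ℕ) (R : ℕ → IntermediateField K Ω), Monotone R ∧
      (∀ i, FiniteDimensional K (R i)) ∧ (∀ i, Algebra.IsSeparable K (R i)) ∧
      ¬ p ∣ finrank K (R 0) ∧ E ≤ R f ∧ p ^ f ∣ (finrank K E).factorial ∧
      (∀ z ∈ E, IsPrimitiveRoot z p → z ∈ R 0) ∧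
      ∀ i < f, ∀ h : R i ≤ R (i + 1),
        IsGalois (R i) (extendScalars h) ∧ finrank (R i) (extendScalars h) = p := by
  have hn : Normal K (normalClosure K E Ω) := normalClosure.normal K E Ω
  have hs : Algebra.IsSeparable K (normalClosure K E Ω) := by
    rw [← le_separableClosure_iff]
    rw [normalClosure_le_iff]
    intro i
    have : Algebra.IsSeparable K i.fieldRange :=
      (AlgEquiv.Algebra.isSeparable (AlgEquiv.ofInjectiveField i))
    exact le_separableClosure K Ω _
  have hg : IsGalois K (normalClosure K E Ω) := ⟨⟩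
  obtain ⟨f, R, h1, h2, h3, h3', hz, h4⟩ := chainZ (K := K) (L := normalClosure K E Ω) p
  have hd : p ^ f ∣ (finrank K E).factorial := by
    have : Nonempty (E →ₐ[K] Ω) := ⟨E.val⟩
    have : IsNormalClosure K E (normalClosure K E Ω) := inferInstance
    exact h3'.trans card_gal_dvd
  have hmono : Monotone fun i => lift (R i) := by
    intro i j hij x hx
    obtain ⟨y, hy, rfl⟩ := hx
    exact ⟨y, h1 hij hy, rfl⟩
  refine ⟨f, fun i => lift (R i), hmono, fun i => ?_, fun i => ?_, ?_, ?_, hd, ?_, ?_⟩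
  · exact LinearEquiv.finiteDimensional (liftAlgEquiv (R i)).toLinearEquiv
  · exact AlgEquiv.Algebra.isSeparable (liftAlgEquiv (R i))
  · rw [← (liftAlgEquiv (R 0)).toLinearEquiv.finrank_eq]; exact h2
  · intro x hx
    have h5 : x ∈ normalClosure K E Ω := IntermediateField.le_normalClosure E hx
    show x ∈ lift (R f)
    rw [h3]
    exact (mem_lift (⟨x, h5⟩ : normalClosure K E Ω)).2 mem_top
  · intro z hzE hzp
    have h5 : z ∈ normalClosure K E Ω := IntermediateField.le_normalClosure E hzE
    refine (mem_lift (⟨z, h5⟩ : normalClosure K E Ω)).2 (hz _ ?_)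
    exact IsPrimitiveRoot.of_map_of_injective
      (f := (normalClosure K E Ω).val) hzp Subtype.val_injective
  · intro i hi h
    have h6 := h4 i hi (h1 (Nat.le_succ i))
    have h7 := lift_step (h1 (Nat.le_succ i)) h h6.1
    exact ⟨h7.1, h7.2.trans h6.2⟩

/-- The tower whose base field contains a given primitive `p`-th root of unity. -/
theorem exists_towerZ {K Ω : Type*} [Field K] [Field Ω] [Algebra K Ω] [Normal K Ω]
    (E : IntermediateField K Ω) [FiniteDimensional K E] [Algebra.IsSeparable K E]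
    (p : ℕ) [hp : Fact p.Prime] {z : Ω} (hz : IsPrimitiveRoot z p) :
    ∃ (f : ℕ) (R : ℕ → IntermediateField K Ω), Monotone R ∧
      (∀ i, FiniteDimensional K (R i)) ∧ (∀ i, Algebra.IsSeparable K (R i)) ∧
      ¬ p ∣ finrank K (R 0) ∧ E ≤ R f ∧ z ∈ R 0 ∧
      p ^ f ∣ (p * finrank K E).factorial ∧
      ∀ i < f, ∀ h : R i ≤ R (i + 1),
        IsGalois (R i) (extendScalars h) ∧ finrank (R i) (extendScalars h) = p := by
  have hp0 : (p : K) ≠ 0 := by
    intro h
    have : NeZero p := ⟨hp.out.ne_zero⟩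
    have h1 : NeZero ((p : ℕ) : Ω) := hz.neZero'
    exact h1.out (by rw [← map_natCast (algebraMap K Ω), h, map_zero])
  have hint : IsIntegral K z := (hz.isIntegral hp.out.pos).tower_top
  have hsz : IsSeparable K z := by
    have h1 : minpoly K z ∣ Polynomial.X ^ p - 1 := by
      apply minpoly.dvd
      simp [hz.pow_eq_one]
    have h2 : (Polynomial.X ^ p - 1 : Polynomial K).Separable :=
      (Polynomial.X_pow_sub_one_separable_iff).2 hp0
    exact h2.of_dvd h1
  have : FiniteDimensional K K⟮z⟯ := adjoin.finiteDimensional hint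
  have : Algebra.IsSeparable K K⟮z⟯ := (isSeparable_adjoin_simple_iff_isSeparable K Ω).2 hsz
  have : FiniteDimensional K (E ⊔ K⟮z⟯ : IntermediateField K Ω) := inferInstance
  have : Algebra.IsSeparable K (E ⊔ K⟮z⟯ : IntermediateField K Ω) := by
    rw [← le_separableClosure_iff]
    exact sup_le (le_separableClosure K Ω E) (le_separableClosure K Ω K⟮z⟯)
  obtain ⟨f, R, h1, h2, h3, h4, h5, h6, h7, h8⟩ :=
    exists_tower' (E ⊔ K⟮z⟯ : IntermediateField K Ω) p
  refine ⟨f, R, h1, h2, h3, h4, le_sup_left.trans h5, ?_, ?_, h8⟩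
  · exact h7 z ((le_sup_right : K⟮z⟯ ≤ E ⊔ K⟮z⟯) (mem_adjoin_simple_self K z)) hz
  · refine h6.trans (Nat.factorial_dvd_factorial ?_)
    have h9 : finrank K (E ⊔ K⟮z⟯ : IntermediateField K Ω) ≤ finrank K E * finrank K K⟮z⟯ :=
      finrank_sup_le E K⟮z⟯
    have h10 : finrank K K⟮z⟯ ≤ p := by
      rw [adjoin.finrank hint]
      have h11 : minpoly K z ∣ Polynomial.X ^ p - 1 := by
        apply minpoly.dvd
        simp [hz.pow_eq_one]
      have h12 : (Polynomial.X ^ p - 1 : Polynomial K) ≠ 0 :=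
        (Polynomial.monic_X_pow_sub_C 1 hp.out.ne_zero).ne_zero
      calc (minpoly K z).natDegree ≤ (Polynomial.X ^ p - 1 : Polynomial K).natDegree :=
            Polynomial.natDegree_le_of_dvd h11 h12
        _ = p := Polynomial.natDegree_X_pow_sub_C
    calc _ ≤ finrank K E * finrank K K⟮z⟯ := h9
      _ ≤ finrank K E * p := Nat.mul_le_mul_left _ h10
      _ = p * finrank K E := mul_comm _ _

/-- Downward induction along the tower whose base field contains a primitive `p`-th root of
unity `z`: `P j R` is the claim for a field `R` from which `j` steps lead to the top. -/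
theorem towerZ_induction {K Ω : Type*} [Field K] [Field Ω] [Algebra K Ω] [Normal K Ω]
    (E : IntermediateField K Ω) [FiniteDimensional K E] [Algebra.IsSeparable K E]
    (p : ℕ) [hp : Fact p.Prime] {z : Ω} (hz : IsPrimitiveRoot z p)
    (P : ℕ → IntermediateField K Ω → Prop)
    (h0 : ∀ R : IntermediateField K Ω, FiniteDimensional K R → Algebra.IsSeparable K R →
      E ≤ R → z ∈ R → P 0 R)
    (h1 : ∀ (j : ℕ) (R R' : IntermediateField K Ω) (h : R ≤ R'), FiniteDimensional K R →
      FiniteDimensional K R' → Algebra.IsSeparable K R → Algebra.IsSeparable K R' → z ∈ R →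
      IsGalois R (extendScalars h) → finrank R (extendScalars h) = p → P j R' → P (j + 1) R) :
    ∃ (f : ℕ) (R : IntermediateField K Ω), p ^ f ∣ (p * finrank K E).factorial ∧
      FiniteDimensional K R ∧ Algebra.IsSeparable K R ∧ z ∈ R ∧ ¬ p ∣ finrank K R ∧ P f R := by
  obtain ⟨f, R, hm, hfd, hsep, hR0, hE, hzR, hd, hst⟩ := exists_towerZ E p hz
  have hzi : ∀ i, z ∈ R i := fun i => hm (Nat.zero_le i) hzR
  refine ⟨f, R 0, hd, hfd 0, hsep 0, hzR, hR0, ?_⟩
  have key : ∀ j ≤ f, P j (R (f - j)) := by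
    intro j
    induction j with
    | zero => intro _; exact h0 _ (hfd _) (hsep _) hE (hzi _)
    | succ j ih =>
      intro hj
      have h2 : f - (j + 1) + 1 = f - j := by omega
      have h3 : R (f - (j + 1)) ≤ R (f - (j + 1) + 1) := hm (Nat.le_succ _)
      obtain ⟨h4, h5⟩ := hst (f - (j + 1)) (by omega) h3
      refine h1 j _ _ h3 (hfd _) (hfd _) (hsep _) (hsep _) (hzi _) h4 h5 ?_
      rw [h2]
      exact ih (by omega)
  have h6 := key f le_rfl
  rwa [Nat.sub_self] at h6

end Vale.Agent.P011.H327.Tower
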