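import Mathlib

/-!
# Embedding a compositum of totally split extensions into a completion

`R / K` number fields, `v` a place of `R` above `V`.  If `M / R` is generated by elements whose
minimal polynomials over `K` split over `K_V`, then `M` embeds into `R_v` over `R`.
-/

namespace Vale.Agent.P011.H327.SplitHom

open NumberField IsDedekindDomain IntermediateField

section adic

variable {A K R B : Type*} [CommRing A] [IsDedekindDomain A] [CommRing B] [IsDedekindDomain B]
  [Algebra A B] [Module.IsTorsionFree A B] [Field K] [Field R] [Algebra K R] [Algebra A K]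
  [IsFractionRing A K] [Algebra A R] [IsScalarTower A K R] [Algebra B R] [IsFractionRing B R]
  [IsScalarTower A B R] (V : HeightOneSpectrum A) (v : HeightOneSpectrum B)
  [v.asIdeal.LiesOver V.asIdeal]

/-- The map of the completions. -/
noncomputable def adMap : V.adicCompletion K →+* v.adicCompletion R :=
  ((HeightOneSpectrum.adicCompletion.equiv R v).symm : _ →+* _).comp
    ((UniformSpace.Completion.mapRingHom
      (algebraMap (WithVal (V.valuation K)) (WithVal (v.valuation R)))
      (HeightOneSpectrum.uniformContinuous_algebraMap_liesOver K R V v).continuous).comp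
      ((HeightOneSpectrum.adicCompletion.equiv K V) : _ →+* _))

theorem adMap_algebraMap (x : K) :
    adMap (R := R) V v (algebraMap K (V.adicCompletion K) x) =
      algebraMap R (v.adicCompletion R) (algebraMap K R x) := by
  have h := UniformSpace.Completion.mapRingHom_coe
    (HeightOneSpectrum.uniformContinuous_algebraMap_liesOver K R V v).continuous
    (WithVal.toVal (V.valuation K) x)
  exact congrArg (HeightOneSpectrum.adicCompletion.equiv R v).symm h

end adic

/-- Field-general form. -/
theorem exists_algHom_of_splits {K R M C C' : Type*} [Field K] [Field R] [Field M] [Field C]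
    [Field C'] [Algebra K R] [Algebra R M] [Algebra K M] [IsScalarTower K R M] [Algebra R C]
    [Algebra K C'] (j : C' →+* C)
    (hj : ∀ x : K, j (algebraMap K C' x) = algebraMap R C (algebraMap K R x))
    (S : Set M) (hS : adjoin R S = ⊤)
    (hsp : ∀ s ∈ S, IsIntegral K s ∧ ((minpoly K s).map (algebraMap K C')).Splits) :
    Nonempty (M →ₐ[R] C) := by
  have h1 : Nonempty (adjoin R S →ₐ[R] C) := by
    apply nonempty_algHom_adjoin_of_splits
    intro s hs
    obtain ⟨h2, h3⟩ := hsp s hs
    refine ⟨h2.tower_top, ?_⟩
    have h4 : minpoly R s ∣ (minpoly K s).map (algebraMap K R) := minpoly.dvd_map_of_isScalarTower K R s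
    have h5 : (((minpoly K s).map (algebraMap K R)).map (algebraMap R C)).Splits := by
      have h6 := h3.map j
      rw [Polynomial.map_map] at h6 ⊢
      have h7 : j.comp (algebraMap K C') = (algebraMap R C).comp (algebraMap K R) :=
        RingHom.ext hj
      rwa [h7] at h6
    have h8 : ((minpoly K s).map (algebraMap K R)).map (algebraMap R C) ≠ 0 := by
      rw [Polynomial.map_map]
      exact Polynomial.map_ne_zero (minpoly.ne_zero h2)
    exact h5.of_dvd h8 (Polynomial.map_dvd _ h4)
  rw [hS] at h1
  obtain ⟨f⟩ := h1
  exact ⟨f.comp (topEquiv.symm : M ≃ₐ[R] (⊤ : IntermediateField R M)).toAlgHom⟩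

/-- Number field form. -/
theorem exists_algHom_adic {K R M : Type*} [Field K] [NumberField K] [Field R] [NumberField R]
    [Field M] [Algebra K R] [Algebra R M] [Algebra K M] [IsScalarTower K R M]
    (V : HeightOneSpectrum (𝓞 K)) (v : HeightOneSpectrum (𝓞 R))
    (hv : v.asIdeal.comap (algebraMap (𝓞 K) (𝓞 R)) = V.asIdeal)
    (S : Set M) (hS : adjoin R S = ⊤)
    (hsp : ∀ s ∈ S, IsIntegral K s ∧
      ((minpoly K s).map (algebraMap K (V.adicCompletion K))).Splits) :
    Nonempty (M →ₐ[R] v.adicCompletion R) := by
  have : v.asIdeal.LiesOver V.asIdeal := ⟨hv.symm⟩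
  exact exists_algHom_of_splits (adMap (K := K) (R := R) V v) (adMap_algebraMap V v) S hS hsp

end Vale.Agent.P011.H327.SplitHom
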