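import Vale.Agent.P011.H327.IntT
import Vale.Agent.P011.H327.SplitHom
import Vale.Agent.P011.H699.Odd.Frame

/-!
# The two-field norm lemma in the letters of the frame, number fields
-/

namespace Vale.Agent.P011.H327.TN

open NumberField IsDedekindDomain Polynomial Module
open Vale.Agent.P011.Arith (Z0 exists_above exists_below below_unique above_finite val_above
  val_le_one_iff val_lt_val_iff ov ov_finite)
open Vale.Agent.P011.H699.Odd (Near TN)

/-- The conclusion of the two-field norm lemma over number fields, for the set `A` of places. -/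
def TwoN (p : ℕ) (R R' : Type) [Field R] [NumberField R] [Field R'] [NumberField R']
    [Algebra R R'] (A : Finset (HeightOneSpectrum (𝓞 R))) : Prop :=
  ∃ v0 : HeightOneSpectrum (𝓞 R), v0 ∉ A ∧
    ∀ c : HeightOneSpectrum (𝓞 R) → R, (∀ v ∈ A, c v ≠ 0 ∧ v.valuation R (c v) ≤ 1) →
    ∀ x : R, x ≠ 0 → (∀ v ∈ A, v.valuation R (x - 1) < v.valuation R ((p : R) ^ 2 * c v)) →
    ∃ V : Finset (HeightOneSpectrum (𝓞 R)), Disjoint V A ∧
      ∀ (E : Type) [Field E] [NumberField E] [Algebra R E],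
        (∀ v ∈ insert v0 (V : Set (HeightOneSpectrum (𝓞 R))),
          Nonempty (E →ₐ[R] v.adicCompletion R)) →
        ∀ g : HeightOneSpectrum (𝓞 R) → R, (∀ v ∈ A, g v ≠ 0) →
        ∃ (x1 : R') (y : E), y ≠ 0 ∧ x = Algebra.norm R x1 * Algebra.norm R y ∧
          (∀ v ∈ A, ∀ w : HeightOneSpectrum (𝓞 R'),
            w.asIdeal.comap (algebraMap (𝓞 R) (𝓞 R')) = v.asIdeal →
            w.valuation R' (x1 - 1) < w.valuation R' (algebraMap R R' (c v))) ∧
          (∀ v ∈ A, ∀ w : HeightOneSpectrum (𝓞 E),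
            w.asIdeal.comap (algebraMap (𝓞 R) (𝓞 E)) = v.asIdeal →
            w.valuation E (y - 1) < w.valuation E (algebraMap R E (g v)))

section

variable {K : Type} [Field K] [NumberField K]

/-- `P` splits over the completions at the places of `pl j`. -/
def Sp {J : Type} (pl : J → Set (HeightOneSpectrum (𝓞 K))) (j : J) (P : K[X]) : Prop :=
  ∀ V ∈ pl j, (P.map (algebraMap K (V.adicCompletion K))).Splits

variable {R : Type} [Field R] [NumberField R] [Algebra K R]

theorem near_iff' {T : Set (HeightOneSpectrum (𝓞 K))} (hT : T.Finite) {c : K} (hc : c ≠ 0)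
    (x : R) :
    Near (OT T) R c x ↔ ∀ v ∈ T, ∀ w : HeightOneSpectrum (𝓞 R),
        w.asIdeal.comap (algebraMap (𝓞 K) (𝓞 R)) = v.asIdeal →
          w.valuation R (x - 1) ≤ w.valuation R (algebraMap K R c) :=
  near_iff hT hc x

omit [NumberField K] [NumberField R] in
theorem comap_trans {E : Type} [Field E] [NumberField E] [Algebra R E] [Algebra K E]
    [IsScalarTower K R E] (w : HeightOneSpectrum (𝓞 E)) (u : HeightOneSpectrum (𝓞 R))
    (h : w.asIdeal.comap (algebraMap (𝓞 R) (𝓞 E)) = u.asIdeal) :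
    w.asIdeal.comap (algebraMap (𝓞 K) (𝓞 E)) =
      u.asIdeal.comap (algebraMap (𝓞 K) (𝓞 R)) := by
  rw [← h, Ideal.comap_comap]
  congr 1
  ext x
  exact congrFun (congrArg DFunLike.coe (IsScalarTower.algebraMap_eq K R E)) (x : K)

/-- **The two-field norm lemma in the letters of the frame.** -/
theorem tn_of_twoN {T : Set (HeightOneSpectrum (𝓞 K))} (hT : T.Finite) {J : Type}
    (pl : J → Set (HeightOneSpectrum (𝓞 K)))
    (hJ : ∀ B : Finset (HeightOneSpectrum (𝓞 K)), (∀ V ∈ B, V ∉ T) → ∃ j, ↑B ⊆ pl j)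
    {p : ℕ} {R' : Type} [Field R'] [NumberField R'] [Algebra R R'] [Algebra K R']
    [IsScalarTower K R R'] (h2 : ∀ A : Finset (HeightOneSpectrum (𝓞 R)), TwoN p R R' A)
    {q c' : K} (hq0 : q ≠ 0) (hq : ∀ v ∈ T, v.valuation K q < 1) (hp : p ≠ 0) (hc0 : c' ≠ 0)
    (hc' : c' ∈ OT T) :
    TN (OT T) (Sp pl) R R' (q * (p : K) ^ 2 * c') c' := by
  classical
  intro x hx hnear
  have hA0 : (ov R T).Finite := ov_finite hT
  set A := hA0.toFinset with hA
  have hmemA : ∀ w : HeightOneSpectrum (𝓞 R), w ∈ A ↔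
      ∃ v ∈ T, w.asIdeal.comap (algebraMap (𝓞 K) (𝓞 R)) = v.asIdeal := by
    intro w
    rw [hA, Set.Finite.mem_toFinset]
    rfl
  have hp0 : (p : K) ≠ 0 := Nat.cast_ne_zero.2 hp
  have hcc : q * (p : K) ^ 2 * c' ≠ 0 := mul_ne_zero (mul_ne_zero hq0 (pow_ne_zero _ hp0)) hc0
  rw [near_iff' hT hcc] at hnear
  obtain ⟨v0, hv0, h3⟩ := h2 A
  have hcA : ∀ v ∈ A, algebraMap K R c' ≠ 0 ∧ v.valuation R (algebraMap K R c') ≤ 1 := by
    intro v hv
    obtain ⟨V, hV, hvV⟩ := (hmemA v).1 hv
    exact ⟨(_root_.map_ne_zero _).2 hc0, (val_le_one_iff hvV c').2 (hc' V hV)⟩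
  obtain ⟨V, hVA, h4⟩ := h3 (fun _ => algebraMap K R c') hcA x hx (by
    intro v hv
    obtain ⟨W, hW, hvW⟩ := (hmemA v).1 hv
    refine (hnear W hW v hvW).trans_lt ?_
    have e1 : (p : R) ^ 2 * algebraMap K R c' = algebraMap K R ((p : K) ^ 2 * c') := by
      rw [map_mul, map_pow, map_natCast]
    rw [e1, val_lt_val_iff hvW, mul_assoc, map_mul]
    have e2 : W.valuation K ((p : K) ^ 2 * c') ≠ 0 :=
      (Valuation.ne_zero_iff _).2 (mul_ne_zero (pow_ne_zero _ hp0) hc0)
    exact mul_lt_of_lt_one_left (zero_lt_iff.2 e2) (hq W hW))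
  choose bel hbel using fun w : HeightOneSpectrum (𝓞 R) => exists_below (F := K) w
  obtain ⟨j, hj⟩ := hJ ((insert v0 V).image bel) (by
    intro W hW hWT
    rw [Finset.mem_image] at hW
    obtain ⟨v, hv, rfl⟩ := hW
    have hvA : v ∈ A := (hmemA v).2 ⟨_, hWT, hbel v⟩
    rcases Finset.mem_insert.1 hv with rfl | hv
    · exact hv0 hvA
    · exact (Finset.disjoint_left.1 hVA) hv hvA)
  refine ⟨j, ?_⟩
  intro M _ _ _ _ _ P hP hsf d hd
  have hKR : FiniteDimensional K R := Module.Finite.of_restrictScalars_finite ℚ K R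
  have hM1 : FiniteDimensional K M := FiniteDimensional.trans K R M
  have hM2 : NumberField M := NumberField.of_module_finite K M
  have hhom : ∀ v ∈ insert v0 (V : Set (HeightOneSpectrum (𝓞 R))),
      Nonempty (M →ₐ[R] v.adicCompletion R) := by
    intro v hv
    have hv1 : bel v ∈ pl j := hj (by
      rw [Finset.coe_image]
      exact ⟨v, by rw [Finset.coe_insert]; exact hv, rfl⟩)
    have h5 := hP _ hv1
    have : v.asIdeal.LiesOver (bel v).asIdeal := ⟨(hbel v).symm⟩
    have h6 := h5.map (SplitHom.adMap (K := K) (R := R) (bel v) v)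
    rw [Polynomial.map_map] at h6
    have h7 : (SplitHom.adMap (K := K) (R := R) (bel v) v).comp
        (algebraMap K ((bel v).adicCompletion K)) =
        (algebraMap R (v.adicCompletion R)).comp (algebraMap K R) :=
      RingHom.ext (SplitHom.adMap_algebraMap (bel v) v)
    rw [h7, ← Polynomial.map_map] at h6
    exact ⟨Polynomial.IsSplittingField.lift M (P.map (algebraMap K R)) h6⟩
  obtain ⟨x1, y, hy, hxy, h8, h9⟩ := h4 M hhom (fun _ => algebraMap K R d)
    (fun v _ => (_root_.map_ne_zero _).2 hd)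
  have hx1 : x1 ≠ 0 := by
    rintro rfl
    have : FiniteDimensional R R' := Module.Finite.of_restrictScalars_finite K R R'
    rw [Algebra.norm_zero, zero_mul] at hxy
    exact hx hxy
  refine ⟨x1, y, hx1, hy, hxy, ?_, ?_⟩
  · rw [near_iff' hT hc0]
    intro W hW w hw
    obtain ⟨u, hu⟩ := exists_below (F := R) w
    have hu1 : u ∈ A := (hmemA u).2 ⟨W, hW, by rw [← comap_trans w u hu]; exact hw⟩
    have h10 := h8 u hu1 w hu
    rw [← IsScalarTower.algebraMap_apply K R R'] at h10
    exact h10.le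
  · rw [near_iff' hT hd]
    intro W hW w hw
    obtain ⟨u, hu⟩ := exists_below (F := R) w
    have hu1 : u ∈ A := (hmemA u).2 ⟨W, hW, by rw [← comap_trans w u hu]; exact hw⟩
    have h10 := h9 u hu1 w hu
    rw [← IsScalarTower.algebraMap_apply K R M] at h10
    exact h10.le

end

end Vale.Agent.P011.H327.TN
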