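import Vale.Agent.P011.Six.H586.Ka
import Vale.Agent.P011.H465.NF
import Vale.Agent.P011.H327.TNnf

/-!
# The reduced norm of a unitary element close to one, number fields
-/

namespace Vale.Agent.P011.H327.ENF

open Module NumberField IsDedekindDomain Polynomial
open Vale.Agent.P011.Arith Vale.Agent.P011.Even
open Vale.Agent.P011.W (HasNrd)
open Vale.Agent.P011.H327.TN (OT isIntegral_iff)
open Vale.Agent.P011.H699.Odd (Near Rn Qt Ug)

section

variable {k K D : Type} [Field k] [NumberField k] [Field K] [NumberField K] [StarRing K]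
  [DivisionRing D] [StarRing D] [Algebra k K] [Algebra k D] [Algebra K D] [IsScalarTower k K D]
  {d : kˣ} {s : K} {N n : ℕ}

theorem exists_le_all {ι : Type*} [Finite ι] (g : ι → ℝ) (hg : ∀ i, 0 < g i) :
    ∃ η : ℝ, 0 < η ∧ ∀ i, η ≤ g i := by
  cases isEmpty_or_nonempty ι
  · exact ⟨1, one_pos, fun i => isEmptyElim i⟩
  · obtain ⟨i, hi⟩ := Finite.exists_min g
    exact ⟨g i, hg i, hi⟩

/-- A small element times a given element is small. -/
theorem exists_mul_lt {V : HeightOneSpectrum (𝓞 K)} {v : HeightOneSpectrum (𝓞 k)} (hV : Ab V v)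
    (x : K) {c : K} (hc : c ≠ 0) : ∃ a : k, a ≠ 0 ∧ ∀ b : k,
      v.valuation k b < v.valuation k a →
        V.valuation K (algebraMap k K b * x) < V.valuation K c := by
  have hc' : V.valuation K c ≠ 0 := (Valuation.ne_zero_iff _).2 hc
  by_cases hx : x = 0
  · refine ⟨1, one_ne_zero, fun b _ => ?_⟩
    rw [hx, mul_zero, map_zero]
    exact zero_lt_iff.2 hc'
  have hx' : V.valuation K x ≠ 0 := (Valuation.ne_zero_iff _).2 hx
  obtain ⟨π, hπ⟩ := exists_val_lt_one (F := k) v
  have hπV : V.valuation K (algebraMap k K π) < 1 := by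
    have h1 := (val_lt_val_iff hV (π : k) 1).2 (by rwa [map_one])
    rwa [map_one, map_one] at h1
  obtain ⟨m, hm⟩ := exists_pow_lt₀ hπV (Units.mk0 (V.valuation K c * (V.valuation K x)⁻¹)
    (mul_ne_zero hc' (inv_ne_zero hx')))
  refine ⟨(π : k) ^ m, pow_ne_zero _ π.ne_zero, fun b hb => ?_⟩
  have h1 : V.valuation K (algebraMap k K b) < V.valuation K c * (V.valuation K x)⁻¹ := by
    refine lt_trans ((val_lt_val_iff hV b _).2 hb) ?_
    rw [map_pow, map_pow]
    exact hm
  rw [map_mul]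
  calc V.valuation K (algebraMap k K b) * V.valuation K x
      < V.valuation K c * (V.valuation K x)⁻¹ * V.valuation K x :=
        mul_lt_mul_of_pos_right h1 (zero_lt_iff.2 hx')
    _ = V.valuation K c := inv_mul_cancel_right₀ hx' _

/-- Linear maps are continuous. -/
theorem val_linear (B : Basis (Fin N) k D) {V : HeightOneSpectrum (𝓞 K)}
    {v : HeightOneSpectrum (𝓞 k)} (hV : Ab V v) (L : D →ₗ[k] K) {c : K} (hc : c ≠ 0) :
    ∃ η : ℝ, 0 < η ∧ ∀ y : D, nm B (Sum.inl v) y < η → V.valuation K (L y) < V.valuation K c := by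
  choose a ha0 ha using fun i : Fin N => exists_mul_lt hV (L (B i)) hc
  obtain ⟨η, hη, hle⟩ := exists_le_all (fun i => plAbv (Sum.inl v) (a i))
    (fun i => (plAbv _).pos (ha0 i))
  refine ⟨η, hη, fun y hy => ?_⟩
  have h1 : L y = ∑ i, algebraMap k K (B.repr y i) * L (B i) := by
    conv_lhs => rw [← B.sum_repr y]
    rw [map_sum]
    exact Finset.sum_congr rfl fun i _ => by rw [map_smul, Algebra.smul_def]
  rw [h1]
  refine Valuation.map_sum_lt _ ((Valuation.ne_zero_iff _).2 hc) fun i _ => ha i _ ?_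
  rw [← plAbv_lt]
  exact (nm_lt_coord B _ hy i).trans_le (hle i)

/-- The reduced norm of an element close to one is close to one. -/
theorem nrd_val (hS : Setting k K D d s) (hdeg : finrank K D = n ^ 2) (B : Basis (Fin N) k D)
    {V : HeightOneSpectrum (𝓞 K)} {v : HeightOneSpectrum (𝓞 k)} (hV : Ab V v) {c : K}
    (hc : c ≠ 0) : ∃ η : ℝ, 0 < η ∧ ∀ (x : D) (b : K), HasNrd K n x b →
      nm B (Sum.inl v) (x - 1) < η → V.valuation K (b - 1) < V.valuation K c := by
  obtain ⟨L, hL⟩ : ∃ L : D →ₗ[k] K, ∀ x : K, L (algebraMap K D x) = x := by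
    obtain ⟨g, hg⟩ := LinearMap.exists_leftInverse_of_injective
      ((Algebra.linearMap K D).restrictScalars k)
      (LinearMap.ker_eq_bot.mpr (algebraMap K D).injective)
    exact ⟨g, fun x => LinearMap.congr_fun hg x⟩
  obtain ⟨η, hη, h1⟩ := val_linear B hV L hc
  obtain ⟨η', hη', h2⟩ := Six.H586.nrd_near B (Sum.inl v) hS hdeg hη
  refine ⟨η', hη', fun x b hb hx => ?_⟩
  have h3 := h1 _ (h2 x b hb hx)
  rwa [← map_one (algebraMap K D), ← map_sub, hL] at h3

/-- **A unitary element close to one has the reduced norm `w / star w` with `w` near one.** -/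
theorem exists_om (hS : Setting k K D d s) (hdeg : finrank K D = n ^ 2) (B : Basis (Fin N) k D)
    {T : Set (Pl k)} {TT : Set (HeightOneSpectrum (𝓞 K))} (hTT : TT.Finite) (hne : TT.Nonempty)
    (hab : ∀ V ∈ TT, ∃ v, (Sum.inl v : Pl k) ∈ T ∧ Ab V v) {Nm : D →* K} (hNm : Rn n Nm)
    (hNrd : ∀ x, HasNrd K n x (Nm x)) {c : K} (hc : c ≠ 0) (hcO : c ∈ OT TT) :
    ∃ η : ℝ, 0 < η ∧ ∀ u : Dˣ, u ∈ Ug D → (∀ p ∈ T, nm B p ((u : D) - 1) < η) →
      ∃ w : K, Near (OT TT) K c w ∧ Qt Nm u w := by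
  have h2 : (2 : K) ≠ 0 := two_ne_zero
  have hc2 : 2 * c ≠ 0 := mul_ne_zero h2 hc
  have hfin : Finite TT := hTT
  choose v hvT hvV using fun V : TT => hab V.1 V.2
  choose η hη hlt using fun V : TT => nrd_val hS hdeg B (hvV V) hc2
  obtain ⟨η0, hη0, hle⟩ := exists_le_all η hη
  refine ⟨η0, hη0, fun u hu hT => ?_⟩
  have hb : ∀ V ∈ TT, V.valuation K (Nm (u : D) - 1) < V.valuation K (2 * c) := fun V hV =>
    hlt ⟨V, hV⟩ _ _ (hNrd _) ((hT _ (hvT ⟨V, hV⟩)).trans_le (hle _))
  set b : K := Nm (u : D) with hbdef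
  have hbs : b * star b = 1 := by
    have h3 : (u : D) * star (u : D) = 1 := hu
    rw [hbdef, ← hNm.star, ← map_mul, h3, map_one]
  have hstar2 : star ((2 : K)⁻¹) = 2⁻¹ := by
    rw [star_inv₀]
    congr 1
    rw [← one_add_one_eq_two, star_add, star_one]
  refine ⟨2⁻¹ * (1 + b), ⟨(2 * c)⁻¹ * (b - 1), ?_, ?_⟩, ?_, ?_⟩
  · have h3 : (2 * c)⁻¹ * (b - 1) ∈ OT TT := by
      intro V hV
      have h4 : V.valuation K (2 * c) ≠ 0 := (Valuation.ne_zero_iff _).2 hc2
      rw [map_mul, map_inv₀]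
      calc (V.valuation K (2 * c))⁻¹ * V.valuation K (b - 1)
          ≤ (V.valuation K (2 * c))⁻¹ * V.valuation K (2 * c) :=
            mul_le_mul_right (hb V hV).le _
        _ = 1 := inv_mul_cancel₀ h4
    exact RingHom.isIntegralElem_map (f := (algebraMap K K).comp (OT TT).subtype)
      (x := (⟨_, h3⟩ : OT TT))
  · change 2⁻¹ * (1 + b) = 1 + c * ((2 * c)⁻¹ * (b - 1))
    field_simp
    ring
  · intro h0
    obtain ⟨V, hV⟩ := hne
    have h3 : b = -1 := by
      have h4 : 1 + b = 0 := (mul_eq_zero.1 h0).resolve_left (inv_ne_zero h2)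
      linear_combination h4
    have h5 := hb V hV
    have h6 : b - 1 = -2 := by rw [h3]; ring
    rw [h6, Valuation.map_neg, map_mul] at h5
    exact absurd h5 (not_lt.2 (mul_le_of_le_one_right zero_le (hcO V hV)))
  · change b * star (2⁻¹ * (1 + b)) = 2⁻¹ * (1 + b)
    rw [star_mul', hstar2, star_add, star_one]
    linear_combination (2 : K)⁻¹ * hbs

end

end Vale.Agent.P011.H327.ENF
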