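import Vale.Agent.P011.H327.TNnf
import Vale.Agent.P011.H929.Odd.TwoNorm

/-!
# The two-field norm lemma of the frame over number fields
-/

namespace Vale.Agent.P011.H327.TN

open NumberField IsDedekindDomain Polynomial Module
open Vale.Agent.P011.H699.Odd (Near TN)

theorem twoN {p : ℕ} (hp : p.Prime) (hp2 : p ≠ 2) {R R' : Type} [Field R] [NumberField R]
    [Field R'] [NumberField R'] [Algebra R R'] [IsGalois R R'] (hdeg : finrank R R' = p)
    {ζ : R} (hζ : IsPrimitiveRoot ζ p) (A : Finset (HeightOneSpectrum (𝓞 R))) :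
    TwoN p R R' A := by
  obtain ⟨v0, hv0, h⟩ := Vale.Agent.P011.H929.two_norm hp hp2 hdeg hζ A
  refine ⟨v0, hv0, fun c hc x hx hx2 => ?_⟩
  obtain ⟨V, hV, h1⟩ := h c hc x hx hx2
  refine ⟨V, hV, fun E _ _ _ hE g hg => h1 E (fun v hv => hE v ?_) g hg⟩
  rcases hv with rfl | hv
  · exact Set.mem_insert _ _
  · exact Set.mem_insert_of_mem _ hv

/-- **(TN), number fields.**  `R'/R` Galois of odd prime degree `p`, `R` contains a primitive
`p`-th root of unity, `q` is small at `T`. -/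
theorem tn_nf {K : Type} [Field K] [NumberField K] {T : Set (HeightOneSpectrum (𝓞 K))}
    (hT : T.Finite) {J : Type} (pl : J → Set (HeightOneSpectrum (𝓞 K)))
    (hJ : ∀ B : Finset (HeightOneSpectrum (𝓞 K)), (∀ V ∈ B, V ∉ T) → ∃ j, ↑B ⊆ pl j)
    {p : ℕ} (hp : p.Prime) (hp2 : p ≠ 2) {R R' : Type} [Field R] [NumberField R] [Field R']
    [NumberField R'] [Algebra K R] [Algebra R R'] [Algebra K R'] [IsScalarTower K R R']
    [IsGalois R R'] (hdeg : finrank R R' = p) {ζ : R} (hζ : IsPrimitiveRoot ζ p)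
    {q c' : K} (hq0 : q ≠ 0) (hq : ∀ v ∈ T, v.valuation K q < 1) (hc0 : c' ≠ 0)
    (hc' : c' ∈ OT T) :
    TN (OT T) (Sp pl) R R' (q * (p : K) ^ 2 * c') c' :=
  tn_of_twoN hT pl hJ (fun A => twoN hp hp2 hdeg hζ A) hq0 hq hp.ne_zero hc0 hc'

end Vale.Agent.P011.H327.TN
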