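import Vale.Agent.P011.H699.Odd.Fam
import Vale.Agent.P011.H327.TNnf2
import Vale.Agent.P011.H327.RnInst
import Vale.Agent.P011.H327.OmNF
import Vale.Agent.P011.H518.Star
import Vale.Agent.P011.H487.SplF

/-!
# The commutators of the unitary elements close to one, number fields
-/

namespace Vale.Agent.P011.H327.ENF

open Module NumberField IsDedekindDomain Polynomial
open scoped commutatorElement
open Vale.Agent.P011.Arith Vale.Agent.P011.Even Vale.Agent.P011.Two Vale.Agent.P011.One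
open Vale.Agent.P011.W (HasNrd)
open Vale.Agent.P011.H327.TN (OT Sp)
open Vale.Agent.P011.H699.Odd (Near Rn Qt Ug Gg Bl Fa Fam Inv1 TN SplE mem_Gg mem_Ug)
open Vale.Agent.P011.H518 (Un)
open Vale.Agent.P011.H487.Spl (SpAt TK JJ plK)

section

variable {k K D : Type} [Field k] [NumberField k] [Field K] [NumberField K] [StarRing K]
  [DivisionRing D] [StarRing D] [Algebra k K] [Algebra k D] [Algebra K D] [IsScalarTower k K D]
  {d : kˣ} {s : K} {N n : ℕ}

/-- The absolute values of `D` at the places of `Tdiv`. -/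
structure NuD (k K D : Type) [Field k] [NumberField k] [Field K] [NumberField K] [StarRing K]
    [DivisionRing D] [StarRing D] [Algebra k K] [Algebra k D] [Algebra K D] {N : ℕ}
    (B : Basis (Fin N) k D) {ι : Type} (ν : ι → AbsoluteValue D ℝ) : Prop where
  fa : Fa ν
  small : ∀ ε : ℝ, 0 < ε → ∃ δ : ℝ, 0 < δ ∧ ∀ x : D, (∀ p ∈ Tdiv k K D, nm B p x < δ) →
    ∀ i, ν i x < ε
  nm : ∀ ε : ℝ, 0 < ε → ∃ δ : ℝ, 0 < δ ∧ ∀ g : D, g * star g = 1 → (∀ i, ν i (g - 1) < δ) →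
    ∀ p ∈ Tdiv k K D, nm B p (g - 1) < ε
  pl : ∀ i, ∃ V : HeightOneSpectrum (𝓞 K), (∃ v, (Sum.inl v : Pl k) ∈ Tdiv k K D ∧ Ab V v) ∧
    (∀ a : K, V.valuation K a ≤ 1 → ν i (algebraMap K D a) ≤ 1) ∧
    ∀ a : K, V.valuation K a < 1 → ν i (algebraMap K D a) < 1

/-- The two-field norm lemma for the intermediate fields. -/
theorem tn_inter {TT : Set (HeightOneSpectrum (𝓞 K))} (hTT : TT.Finite) {J : Type}
    (pl : J → Set (HeightOneSpectrum (𝓞 K)))
    (hJ : ∀ B : Finset (HeightOneSpectrum (𝓞 K)), (∀ V ∈ B, V ∉ TT) → ∃ j, ↑B ⊆ pl j)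
    {Ω : Type} [Field Ω] [Algebra K Ω] {p : ℕ} (hp : p.Prime) (hp2 : p ≠ 2)
    (R R' : IntermediateField K Ω) (h : R ≤ R') [FiniteDimensional K R] [FiniteDimensional K R']
    {ζ : Ω} (hζ : IsPrimitiveRoot ζ p) (hζR : ζ ∈ R)
    (hG : IsGalois R (IntermediateField.extendScalars h))
    (hd : finrank R (IntermediateField.extendScalars h) = p)
    {q c : K} (hq0 : q ≠ 0) (hq : ∀ v ∈ TT, v.valuation K q < 1) (hc0 : c ≠ 0) (hc : c ∈ OT TT) :
    letI := (IntermediateField.inclusion h).toRingHom.toAlgebra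
    TN (OT TT) (Sp pl) R R' (q * (p : K) ^ 2 * c) c := by
  let i1 : Algebra R R' := (IntermediateField.inclusion h).toRingHom.toAlgebra
  have i2 : IsScalarTower K R R' := IsScalarTower.of_algebraMap_eq fun _ => rfl
  have i3 : NumberField R := NumberField.of_module_finite K R
  have i4 : NumberField R' := NumberField.of_module_finite K R'
  let e : (IntermediateField.extendScalars h) ≃ₐ[R] R' :=
    { toFun := fun x => ⟨x.1, x.2⟩
      invFun := fun x => ⟨x.1, x.2⟩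
      left_inv := fun _ => rfl
      right_inv := fun _ => rfl
      map_mul' := fun _ _ => rfl
      map_add' := fun _ _ => rfl
      commutes' := fun _ => rfl }
  have i5 : IsGalois R R' := IsGalois.of_algEquiv e
  have hd' : finrank R R' = p := by rw [← hd]; exact e.toLinearEquiv.finrank_eq.symm
  have hζ' : IsPrimitiveRoot (⟨ζ, hζR⟩ : R) p :=
    IsPrimitiveRoot.of_map_of_injective (f := algebraMap R Ω) hζ (algebraMap R Ω).injective
  exact Vale.Agent.P011.H327.TN.tn_nf hTT pl hJ hp hp2 hd' hζ' hq0 hq hc0 hc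

/-- **The commutators of the unitary elements close to one at `T` are in `Q`.** -/
theorem mode_nf (hS : Setting k K D d s) (ho : Odd n) (hn3 : 3 ≤ n) (hdeg : finrank K D = n ^ 2)
    {Ω : Type} [Field Ω] [Algebra K Ω] (f : D →ₐ[K] Matrix (Fin n) (Fin n) Ω)
    (B : Basis (Fin N) k D) {T : Set (Pl k)} (hT : T.Finite) (hTd : Tdiv k K D ⊆ T)
    (hTs : ∀ v : HeightOneSpectrum (𝓞 k), (Sum.inl v : Pl k) ∉ T → SpAt K D n d v)
    (hT1 : ∃ v : HeightOneSpectrum (𝓞 k), (Sum.inl v : Pl k) ∈ T)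
    {ι : Type} [Finite ι] {ν : ι → AbsoluteValue D ℝ} (hν : NuD k K D B ν)
    {Q H : Subgroup (SUD f)} (hQH : Q ≤ H)
    (hH : PF B (GU f) (Im H) (Tdiv k K D)) (hc : ∀ g : SUD f, ∀ x ∈ H, ⁅g, x⁆ ∈ Q) :
    ∃ ε : ℝ, 0 < ε ∧
      (∀ u w : Dˣ, Un u → Un w → (∀ p ∈ T, nm B p ((u : D) - 1) < ε) →
        (∀ p ∈ T, nm B p ((w : D) - 1) < ε) → ⁅u, w⁆ ∈ Q.map (SUD f).subtype) ∧
      ∀ u h : Dˣ, Un u → (∀ p ∈ T, nm B p ((u : D) - 1) < ε) → h ∈ SUD f →
        (∀ p ∈ Tdiv k K D, nm B p ((h : D) - 1) < ε) → ⁅u, h⁆ ∈ Q.map (SUD f).subtype := by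
  have := hS.fin
  have := hS.cen
  have hK0 : CharZero K := inferInstance
  have hn : 0 < n := by omega
  -- the places
  set TT : Set (HeightOneSpectrum (𝓞 K)) := TK K D n d T with hTT
  have hTTf : TT.Finite := H487.Spl.finite_TK hS hn hdeg hT
  have hab : ∀ V ∈ TT, ∃ v, (Sum.inl v : Pl k) ∈ T ∧ Ab V v := by
    rintro V ⟨v, hv | hv, hV⟩
    · exact ⟨v, hv, hV⟩
    · exact ⟨v, by by_contra h0; exact hv (hTs v h0), hV⟩
  have hne : TT.Nonempty := by
    obtain ⟨v, hv⟩ := hT1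
    obtain ⟨V, hV⟩ := exists_above (E := K) v
    exact ⟨V, v, Or.inl hv, hV⟩
  -- the reduced norm
  obtain ⟨Nm, hNm, hNrd, hdet⟩ := Vale.Agent.P011.H327.TN.exists_rn (K := K) (D := D) (n := n)
    hdeg hS.star_alg
  -- a small element of `K`
  obtain ⟨q, hq0, hq⟩ : ∃ q : K, q ≠ 0 ∧ ∀ V ∈ TT, V.valuation K q < 1 := by
    obtain ⟨b, hb0, hb⟩ := H465.exists_small (k := K) (T := Sum.inl '' TT) (hTTf.image _)
      (by rintro _ ⟨v, -, rfl⟩; exact ⟨v, rfl⟩)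
    exact ⟨b, hb0, fun V hV => (plAbv_lt_one V b).1 (hb _ ⟨V, hV, rfl⟩)⟩
  have hqO : q ∈ OT TT := fun V hV => (hq V hV).le
  choose V hV1 hV2 hV3 using hν.pl
  have hVT : ∀ i, V i ∈ TT := fun i => by
    obtain ⟨v, hv, hvV⟩ := hV1 i
    exact ⟨v, Or.inl (hTd hv), hvV⟩
  have hO : ∀ i, ∀ c ∈ OT TT, ν i (algebraMap K D c) ≤ 1 := fun i c hcO =>
    hV2 i c (hcO _ (hVT i))
  have hsm : ∀ ε : ℝ, 0 < ε → ∃ c ∈ OT TT, c ≠ 0 ∧ ∀ i, ν i (algebraMap K D c) < ε := by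
    intro ε hε
    choose m hm using fun i => exists_pow_lt_of_lt_one hε (hV3 i q (hq _ (hVT i)))
    have : Fintype ι := Fintype.ofFinite ι
    refine ⟨q ^ (Finset.univ.sup m), pow_mem hqO _, pow_ne_zero _ hq0, fun i => ?_⟩
    rw [map_pow, map_pow]
    exact (pow_le_pow_of_le_one ((ν i).nonneg _) (hV3 i q (hq _ (hVT i))).le
      (Finset.le_sup (Finset.mem_univ i))).trans_lt (hm i)
  -- the split elements
  have hSpl : SplE n Nm ν (Sp (plK (K := K) (D := D) (n := n) (d := d) (P := T))) := by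
    refine H487.Spl.splE_nf hS ho hn3 hdeg f B hT (fun ε hε => ?_) (fun x => hdet Ω f x)
    obtain ⟨δ, hδ, h1⟩ := hν.small ε hε
    exact ⟨δ, hδ, fun x hx => h1 x fun p hp => hx p (hTd hp)⟩
  -- the roots of unity
  have hζ : ∀ p : ℕ, ∃ ζ : AlgebraicClosure K, p.Prime → IsPrimitiveRoot ζ p := by
    intro p
    by_cases hp : p.Prime
    · have : NeZero (p : AlgebraicClosure K) := ⟨Nat.cast_ne_zero.2 hp.ne_zero⟩
      have : NeZero p := ⟨hp.ne_zero⟩
      obtain ⟨ζ, hζ⟩ := HasEnoughRootsOfUnity.exists_primitiveRoot (AlgebraicClosure K) p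
      exact ⟨ζ, fun _ => hζ⟩
    · exact ⟨0, fun h => absurd h hp⟩
  choose ζ hζ using hζ
  -- the subgroup contains the elements close to one
  obtain ⟨ε₁, hε₁, hHε₁⟩ : ∃ ε₁ : ℝ, 0 < ε₁ ∧ ∀ g ∈ Gg Nm, Bl ν ε₁ g →
      g ∈ H.map (SUD f).subtype := by
    obtain ⟨η, hη, hHm⟩ := hH
    have hTdf : Finite (Tdiv k K D) := hT.subset hTd
    obtain ⟨η₀, hη₀, hle⟩ := exists_le_all (fun p : Tdiv k K D => η p) fun p => hη p
    obtain ⟨ε₁, hε₁, h1⟩ := hν.nm η₀ hη₀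
    refine ⟨ε₁, hε₁, fun g hg hb => ?_⟩
    have hg1 : (g : D) * star (g : D) = 1 := hg.1
    obtain ⟨x, hx, hxe⟩ := hHm (g : D) ⟨hg1, by rw [hdet, hg.2, map_one]⟩
      fun p hp => (h1 g hg1 hb p hp).trans_le (hle ⟨p, hp⟩)
    exact ⟨x, hx, Units.ext hxe⟩
  set ε : ℝ := min ε₁ 1 with hεdef
  have hε : 0 < ε := lt_min hε₁ one_pos
  have hε1 : ε ≤ 1 := min_le_right _ _
  obtain ⟨cK, hcKO, hcK0, hmain⟩ := Vale.Agent.P011.H699.Odd.main_of
    (Ω := AlgebraicClosure K) (OT := OT TT)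
    (Sp := Sp (plK (K := K) (D := D) (n := n) (d := d) (P := T)))
    hn hNm hν.fa (fun q => IsIntegral.of_finite K q) hO hsm
    (fun j V hV => by rw [Polynomial.map_one]; exact Polynomial.Splits.one)
    (fun j P P' hP hP' V hV => by rw [Polynomial.map_mul]; exact (hP V hV).mul (hP' V hV))
    H487.Spl.nonempty_jj hSpl
    (fun q => (minpoly.irreducible (IsIntegral.of_finite K q)).separable)
    (Nat.cast_ne_zero.2 (Nat.factorial_ne_zero _)) ζ (fun p hp _ => hζ p hp) hqO hq0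
    (fun p hp hpn R R' h hR hR' hζR hG hd c hcO hc0 =>
      tn_inter hTTf _ H487.Spl.exists_jj hp (by
        rintro rfl
        exact (Nat.not_even_iff_odd.2 ho) (even_iff_two_dvd.2 hpn)) R R' h (hζ p hp) hζR hG hd
        hq0 hq hc0 hcO) hε hε1
  have hSG : ∀ g : Dˣ, g ∈ Gg Nm → g ∈ SUD f := fun g hg =>
    ⟨hg.1, by rw [hdet, hg.2, map_one]⟩
  have hGS : ∀ g : Dˣ, g ∈ SUD f → g ∈ Gg Nm := fun g hg =>
    ⟨hg.1, by
      apply (algebraMap K Ω).injective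
      rw [← hdet Ω f, hg.2, map_one]⟩
  obtain ⟨hE1, hE3⟩ := Vale.Agent.P011.H699.Odd.comm_mem_of (N := Nm) hν.fa hε1 hmain
    (Q := Q.map (SUD f).subtype) (H := H.map (SUD f).subtype)
    (Subgroup.map_mono hQH)
    (by
      rintro _ ⟨x, -, rfl⟩
      exact hGS _ x.2)
    (by
      rintro g hg _ ⟨x, hx, rfl⟩
      exact ⟨⁅⟨g, hSG g hg⟩, x⁆, hc _ x hx, rfl⟩)
    (fun g hg hb => hHε₁ g hg fun i => (hb i).trans_le (min_le_left _ _))
  obtain ⟨η, hη, hom⟩ := exists_om hS hdeg B hTTf hne hab hNm hNrd hcK0 hcKO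
  obtain ⟨δ, hδ, hδν⟩ := hν.small ε hε
  refine ⟨min η δ, lt_min hη hδ, fun u w hu hw hun hwn => ?_, fun u h hu hun hh hhn => ?_⟩
  · obtain ⟨a, ha, hua⟩ := hom u hu fun p hp => (hun p hp).trans_le (min_le_left _ _)
    obtain ⟨b, hb, hwb⟩ := hom w hw fun p hp => (hwn p hp).trans_le (min_le_left _ _)
    exact hE3 u hu w hw
      (hδν _ fun p hp => (hun p (hTd hp)).trans_le (min_le_right _ _))
      (hδν _ fun p hp => (hwn p (hTd hp)).trans_le (min_le_right _ _)) a b ha hb hua hwb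
  · obtain ⟨a, ha, hua⟩ := hom u hu fun p hp => (hun p hp).trans_le (min_le_left _ _)
    exact hE1 u hu a ha hua h (hGS h hh)
      (hδν _ fun p hp => (hhn p hp).trans_le (min_le_right _ _))

end

end Vale.Agent.P011.H327.ENF
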