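import Vale.Agent.P011.Arith.Quad

/-!
# Integrality at a finite set of places of the base field

`OT T` = the elements of the number field `K` which are integral at the places of `T`.  An element
`a` of a finite extension `R` is integral over `OT T` if and only if it is integral at all the
places above `T`.
-/

namespace Vale.Agent.P011.H327.TN

open NumberField IsDedekindDomain Polynomial
open Vale.Agent.P011.Arith (Z0 exists_above exists_below below_unique above_finite val_above
  val_le_one_iff)

variable {K : Type} [Field K] [NumberField K]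

/-- The elements which are integral at the places of `T`. -/
def OT (T : Set (HeightOneSpectrum (𝓞 K))) : Subring K where
  carrier := {x | ∀ v ∈ T, v.valuation K x ≤ 1}
  mul_mem' := fun {a b} ha hb v hv => by
    rw [map_mul]
    exact mul_le_one' (ha v hv) (hb v hv)
  one_mem' := fun v _ => by rw [map_one]
  add_mem' := fun {a b} ha hb v hv => (Valuation.map_add _ a b).trans (max_le (ha v hv) (hb v hv))
  zero_mem' := fun v _ => by rw [map_zero]; exact zero_le_one
  neg_mem' := fun {a} ha v hv => by rw [Valuation.map_neg]; exact ha v hv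

theorem mem_OT {T : Set (HeightOneSpectrum (𝓞 K))} {x : K} :
    x ∈ OT T ↔ ∀ v ∈ T, v.valuation K x ≤ 1 := Iff.rfl

/-- An integer which is a unit at `T` and small at `B`. -/
theorem exists_sep (T B : Finset (HeightOneSpectrum (𝓞 K))) (h : Disjoint T B)
    (e : HeightOneSpectrum (𝓞 K) → ℕ) :
    ∃ s : 𝓞 K, (∀ v ∈ T, v.valuation K (s : K) = 1) ∧
      ∀ v ∈ B, v.valuation K (s : K) ≤ WithZero.exp (-(e v : ℤ)) := by
  classical
  obtain ⟨y, hy⟩ := IsDedekindDomain.exists_forall_sub_mem_ideal (s := T ∪ B)
    (fun v : HeightOneSpectrum (𝓞 K) => v.asIdeal) (fun v => if v ∈ T then 1 else e v)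
    (fun v _ => v.prime) (fun v _ w _ hvw h0 => hvw (HeightOneSpectrum.ext h0))
    (fun v => if (v : HeightOneSpectrum (𝓞 K)) ∈ T then 1 else 0)
  refine ⟨y, fun v hv => ?_, fun v hv => ?_⟩
  · have h1 := hy v (Finset.mem_union_left _ hv)
    simp only [hv, if_true, pow_one] at h1
    have h2 : v.valuation K (((y - 1 : 𝓞 K) : K)) < 1 := by
      rw [HeightOneSpectrum.valuation_lt_one_iff_mem]; exact h1
    have h3 : (y : K) = 1 + ((y - 1 : 𝓞 K) : K) := by push_cast; ring
    rw [h3, Valuation.map_add_eq_of_lt_left]
    · exact Valuation.map_one _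
    · rw [Valuation.map_one]; exact h2
  · have hvT : v ∉ T := fun h0 => (Finset.disjoint_left.1 h) h0 hv
    have h1 := hy v (Finset.mem_union_right _ hv)
    simp only [hvT, if_false, sub_zero] at h1
    have h2 := (v.intValuation_le_pow_iff_mem y (e v)).2 h1
    rwa [← HeightOneSpectrum.valuation_of_algebraMap (K := K)] at h2

variable {R : Type} [Field R] [NumberField R] [Algebra K R]

/-- Integrality over `OT T` is integrality at the places above `T`. -/
theorem isIntegral_iff {T : Set (HeightOneSpectrum (𝓞 K))} (hT : T.Finite) (a : R) :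
    IsIntegral (OT T) a ↔ ∀ v ∈ T, ∀ w : HeightOneSpectrum (𝓞 R),
      w.asIdeal.comap (algebraMap (𝓞 K) (𝓞 R)) = v.asIdeal → w.valuation R a ≤ 1 := by
  classical
  constructor
  · rintro ⟨p, hp, hpa⟩ v hv w hw
    have h0 : ∀ x : OT T, algebraMap (OT T) R x ∈ (w.valuation R).integer := fun x =>
      (val_le_one_iff hw (x : K)).2 (x.2 v hv)
    let φ : OT T →+* (w.valuation R).integer := (algebraMap (OT T) R).codRestrict _ h0
    have h1 : IsIntegral (w.valuation R).integer a := by
      refine ⟨p.map φ, hp.map φ, ?_⟩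
      rw [eval₂_map]
      exact hpa
    exact (Valuation.integer.integers (w.valuation R)).mem_of_integral h1
  · intro h
    by_cases ha : a = 0
    · rw [ha]; exact isIntegral_zero
    have hfin : {w : HeightOneSpectrum (𝓞 R) | ¬ w.valuation R a ≤ 1}.Finite :=
      (HeightOneSpectrum.Support.finite (R := 𝓞 R) (K := R) a).subset fun w hw => by
        simpa [HeightOneSpectrum.Support] using hw
    choose bel hbel using fun w : HeightOneSpectrum (𝓞 R) => exists_below (F := K) w
    set B : Finset (HeightOneSpectrum (𝓞 K)) := hfin.toFinset.image bel with hB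
    have hTB : Disjoint hT.toFinset B := by
      rw [Finset.disjoint_left]
      intro v hv hvB
      rw [hB, Finset.mem_image] at hvB
      obtain ⟨w, hw, rfl⟩ := hvB
      rw [Set.Finite.mem_toFinset] at hv hw
      exact hw (h _ hv w (hbel w))
    obtain ⟨N, hN⟩ : ∃ N : ℕ, ∀ w ∈ hfin.toFinset, w.valuation R a ≤ WithZero.exp (N : ℤ) := by
      refine ⟨∑ w ∈ hfin.toFinset, (WithZero.log (w.valuation R a)).toNat, fun w hw => ?_⟩
      have h1 : w.valuation R a ≠ 0 := (Valuation.ne_zero_iff _).2 ha
      rw [← WithZero.exp_log h1, WithZero.exp_le_exp]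
      calc WithZero.log (w.valuation R a) ≤ ((WithZero.log (w.valuation R a)).toNat : ℤ) :=
            Int.self_le_toNat _
        _ ≤ _ := by
            exact_mod_cast Finset.single_le_sum
              (f := fun w : HeightOneSpectrum (𝓞 R) => (WithZero.log (w.valuation R a)).toNat)
              (fun _ _ => Nat.zero_le _) hw
    obtain ⟨s, hs1, hs2⟩ := exists_sep hT.toFinset B hTB (fun _ => N)
    have h2 : ∀ w : HeightOneSpectrum (𝓞 R), w.valuation R (algebraMap K R s * a) ≤ 1 := by
      intro w
      rw [map_mul]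
      obtain ⟨e, he, hval⟩ := val_above (hbel w)
      have h3 : w.valuation R (algebraMap K R (s : K)) ≤ 1 := by
        rw [hval]
        exact pow_le_one' (HeightOneSpectrum.valuation_le_one _ _) _
      by_cases hw : w.valuation R a ≤ 1
      · exact mul_le_one' h3 hw
      · have hw' : w ∈ hfin.toFinset := by rw [Set.Finite.mem_toFinset]; exact hw
        have h4 : bel w ∈ B := Finset.mem_image_of_mem _ hw'
        have h5 : w.valuation R (algebraMap K R (s : K)) ≤ WithZero.exp (-(N : ℤ)) := by
          rw [hval]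
          calc (bel w).valuation K (s : K) ^ e ≤ (bel w).valuation K (s : K) ^ 1 :=
                pow_le_pow_right_of_le_one' (HeightOneSpectrum.valuation_le_one _ _)
                  (Nat.one_le_iff_ne_zero.2 he)
            _ ≤ _ := by rw [pow_one]; exact hs2 _ h4
        calc w.valuation R (algebraMap K R (s : K)) * w.valuation R a
            ≤ WithZero.exp (-(N : ℤ)) * WithZero.exp (N : ℤ) := mul_le_mul' h5 (hN w hw')
          _ = 1 := by rw [← WithZero.exp_add, neg_add_cancel, WithZero.exp_zero]
    obtain ⟨b, hb⟩ := HeightOneSpectrum.mem_integers_of_valuation_le_one R _ h2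
    have hs0 : (s : K) ≠ 0 ∨ T = ∅ := by
      by_cases hT0 : T = ∅
      · exact Or.inr hT0
      · left
        obtain ⟨v, hv⟩ := Set.nonempty_iff_ne_empty.2 hT0
        intro h0
        have h5 := hs1 v (by rwa [Set.Finite.mem_toFinset])
        rw [h0, map_zero] at h5
        exact zero_ne_one h5
    rcases hs0 with hs0 | hT0
    · have hsi : (s : K)⁻¹ ∈ OT T := by
        intro v hv
        rw [map_inv₀, hs1 v (by rwa [Set.Finite.mem_toFinset]), inv_one]
      have hbi : IsIntegral (OT T) (algebraMap (𝓞 R) R b) := by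
        have h6 : IsIntegral ℤ (algebraMap (𝓞 R) R b) := b.isIntegral_coe
        exact h6.tower_top
      have h7 : a = (⟨(s : K)⁻¹, hsi⟩ : OT T) • (algebraMap (𝓞 R) R b) := by
        rw [hb, Algebra.smul_def]
        change a = algebraMap K R ((s : K)⁻¹) * (algebraMap K R s * a)
        rw [← mul_assoc, ← map_mul, inv_mul_cancel₀ hs0, map_one, one_mul]
      rw [h7]
      exact hbi.smul _
    · have h8 : Algebra.IsAlgebraic K R := inferInstance
      have h9 : IsIntegral K a := (Algebra.IsAlgebraic.isAlgebraic a).isIntegral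
      obtain ⟨p, hp, hpa⟩ := h9
      have h10 : ∀ x : K, x ∈ OT T := fun x v hv => by rw [hT0] at hv; exact absurd hv (by simp)
      let φ : K →+* OT T := (RingHom.id K).codRestrict _ h10
      refine ⟨p.map φ, hp.map φ, ?_⟩
      rw [eval₂_map]
      exact hpa

/-- Nearness to one. -/
theorem near_iff {T : Set (HeightOneSpectrum (𝓞 K))} (hT : T.Finite) {c : K} (hc : c ≠ 0)
    (x : R) :
    (∃ a : R, IsIntegral (OT T) a ∧ x = 1 + algebraMap K R c * a) ↔
      ∀ v ∈ T, ∀ w : HeightOneSpectrum (𝓞 R),
        w.asIdeal.comap (algebraMap (𝓞 K) (𝓞 R)) = v.asIdeal →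
          w.valuation R (x - 1) ≤ w.valuation R (algebraMap K R c) := by
  have hc' : algebraMap K R c ≠ 0 := (_root_.map_ne_zero _).2 hc
  constructor
  · rintro ⟨a, ha, rfl⟩ v hv w hw
    rw [add_sub_cancel_left, map_mul]
    exact mul_le_of_le_one_right' ((isIntegral_iff hT a).1 ha v hv w hw)
  · intro h
    refine ⟨(x - 1) / algebraMap K R c, (isIntegral_iff hT _).2 fun v hv w hw => ?_, ?_⟩
    · rw [map_div₀]
      exact div_le_one_of_le₀ (h v hv w hw) zero_le
    · rw [mul_div_cancel₀ _ hc']; ring

end Vale.Agent.P011.H327.TN
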