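import Vale.Agent.P011.H327.ENF
import Vale.Agent.P011.H770.Odd.Nu
import Vale.Agent.P011.H775.Odd.TSet

/-!
# The commutators of the unitary elements close to one, number fields: the final form
-/

namespace Vale.Agent.P011.H327.ENF

open Module NumberField IsDedekindDomain Polynomial
open scoped commutatorElement
open Vale.Agent.P011.Arith Vale.Agent.P011.Even Vale.Agent.P011.Two Vale.Agent.P011.One
open Vale.Agent.P011.Pow (Ram)
open Vale.Agent.P011.H518 (Un)
open Vale.Agent.P011.H487.Spl (SpAt spAt_almost)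

section

variable {k K D : Type} [Field k] [NumberField k] [Field K] [NumberField K] [StarRing K]
  [DivisionRing D] [StarRing D] [Algebra k K] [Algebra k D] [Algebra K D] [IsScalarTower k K D]
  {d : kˣ} {s : K} {N n : ℕ}

/-- **The set of places**: finite, not empty, all its places split in `K`, it contains the places
at which `D` is not split. -/
theorem exists_T (hS : Setting k K D d s) (hn : 2 ≤ n) (hdeg : finrank K D = n ^ 2) :
    ∃ T : Finset (Pl k), T.Nonempty ∧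
      (∀ p ∈ T, ∃ v : HeightOneSpectrum (𝓞 k), p = Sum.inl v ∧ d ∈ LS (v.valuation k) ∧
        Nonempty (K →ₐ[k] v.adicCompletion k)) ∧
      Tdiv k K D ⊆ T ∧ (∀ v ∈ Ram k K D n, (Sum.inl v : Pl k) ∈ T) ∧
      ∀ v : HeightOneSpectrum (𝓞 k), (Sum.inl v : Pl k) ∉ T → SpAt K D n d v := by
  classical
  obtain ⟨T, h1, h2, h3, h4⟩ := H775.Top.exists_T hS hn hdeg
  have hf : {v : HeightOneSpectrum (𝓞 k) | ¬ SpAt K D n d v}.Finite :=
    spAt_almost hS (by omega) hdeg
  refine ⟨T ∪ hf.toFinset.image Sum.inl, h1.mono Finset.subset_union_left, ?_, ?_, ?_, ?_⟩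
  · intro p hp
    rcases Finset.mem_union.1 hp with hp | hp
    · exact h2 p hp
    · obtain ⟨v, hv, rfl⟩ := Finset.mem_image.1 hp
      have hv' : ¬ SpAt K D n d v := hf.mem_toFinset.1 hv
      have hd : d ∈ LS (v.valuation k) := by
        by_contra h0
        exact hv' fun h => absurd h h0
      exact ⟨v, rfl, hd, H775.Top.nonempty_of_ls hS hd⟩
  · intro p hp
    rw [Finset.coe_union]
    exact Or.inl (h3 hp)
  · intro v hv
    exact Finset.mem_union_left _ (h4 v hv)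
  · intro v hv
    by_contra h0
    exact hv (Finset.mem_union_right _ (Finset.mem_image_of_mem _ (hf.mem_toFinset.2 h0)))

/-- **The commutators of the unitary elements close to one at `T` are in `Q`** (number fields,
every odd degree). -/
theorem mod_e (hS : Setting k K D d s) (ho : Odd n) (hn3 : 3 ≤ n) (hdeg : finrank K D = n ^ 2)
    {Ω : Type} [Field Ω] [Algebra K Ω] (f : D →ₐ[K] Matrix (Fin n) (Fin n) Ω)
    (B : Basis (Fin N) k D) {T : Set (Pl k)} (hT : T.Finite) (hTd : Tdiv k K D ⊆ T)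
    (hTs : ∀ v : HeightOneSpectrum (𝓞 k), (Sum.inl v : Pl k) ∉ T → SpAt K D n d v)
    (hT1 : ∃ v : HeightOneSpectrum (𝓞 k), (Sum.inl v : Pl k) ∈ T)
    {Q H : Subgroup (SUD f)} (hQH : Q ≤ H)
    (hH : PF B (GU f) (Im H) (Tdiv k K D)) (hc : ∀ g : SUD f, ∀ x ∈ H, ⁅g, x⁆ ∈ Q) :
    ∃ ε : ℝ, 0 < ε ∧
      (∀ u w : Dˣ, Un u → Un w → (∀ p ∈ T, nm B p ((u : D) - 1) < ε) →
        (∀ p ∈ T, nm B p ((w : D) - 1) < ε) → ⁅u, w⁆ ∈ Q.map (SUD f).subtype) ∧
      ∀ u h : Dˣ, Un u → (∀ p ∈ T, nm B p ((u : D) - 1) < ε) → h ∈ SUD f →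
        (∀ p ∈ Tdiv k K D, nm B p ((h : D) - 1) < ε) → ⁅u, h⁆ ∈ Q.map (SUD f).subtype := by
  obtain ⟨ι, hι, ν, h1, -, h2, h3, h4, -⟩ := H770.Odd.exists_nu hS (by omega) hdeg B
  have hν : NuD k K D B ν := by
    refine ⟨h1, h2, fun ε hε => ?_, fun i => ?_⟩
    · obtain ⟨δ, hδ, h5⟩ := h3 ε hε
      exact ⟨δ, hδ, fun g _ hg => h5 _ hg⟩
    · obtain ⟨V, hV, h5, h6⟩ := h4 i
      exact ⟨V, hV, h5, h6⟩
  exact mode_nf hS ho hn3 hdeg f B hT hTd hTs hT1 hν hQH hH hc

end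

end Vale.Agent.P011.H327.ENF
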