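import Vale.Agent.P011.H327.ModE
import Vale.Agent.P011.H627.Odd.SkelNF

/-!
# The first module of the skeleton, number fields
-/

namespace Vale.Agent.P011.H327.ENF

open Module NumberField IsDedekindDomain
open Vale.Agent.P011.Arith Vale.Agent.P011.Even Vale.Agent.P011.Two Vale.Agent.P011.One
open Vale.Agent.P011.H487.Spl (SpAt)
open Vale.Agent.P011.H627.Odd (ModE)

/-- **The first module of the skeleton.** -/
theorem modE {k K D : Type} [Field k] [NumberField k] [Field K] [NumberField K] [StarRing K]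
    [DivisionRing D] [StarRing D] [Algebra k K] [Algebra k D] [Algebra K D] [IsScalarTower k K D]
    {d : kˣ} {s : K} {N n : ℕ} (hS : Setting k K D d s) (ho : Odd n) (hn3 : 3 ≤ n)
    (hdeg : finrank K D = n ^ 2) {Ω : Type} [Field Ω] [Algebra K Ω]
    (f : D →ₐ[K] Matrix (Fin n) (Fin n) Ω) (B : Basis (Fin N) k D) {T : Set (Pl k)}
    (hT : T.Finite) (hTd : Tdiv k K D ⊆ T)
    (hTs : ∀ v : HeightOneSpectrum (𝓞 k), (Sum.inl v : Pl k) ∉ T → SpAt K D n d v)
    (hT1 : ∃ v : HeightOneSpectrum (𝓞 k), (Sum.inl v : Pl k) ∈ T) : ModE f B T := by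
  intro Q H _ _ hQH _ hH _ hc
  obtain ⟨ε, hε, h, -⟩ := mod_e hS ho hn3 hdeg f B hT hTd hTs hT1 hQH hH hc
  exact ⟨ε, hε, fun u w hu hw => h u w hu hw⟩

end Vale.Agent.P011.H327.ENF
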