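import Vale.Agent.P011.H699.Odd.Frame

/-!
# Nearness to one: products, norms, absolute values
-/

namespace Vale.Agent.P011.H327.TN

open Module Polynomial
open Vale.Agent.P011.H699.Odd (Near)

section

variable {K : Type} [Field K] {OT : Subring K}

theorem near_def {R : Type} [Field R] [Algebra K R] {c : K} {x : R} :
    Near OT R c x ↔ ∃ a : R, IsIntegral OT a ∧ x = 1 + algebraMap K R c * a := Iff.rfl

/-- Near elements of any commutative algebra. -/
def NearA (OT : Subring K) {A : Type*} [CommRing A] [Algebra K A] (c : K) (x : A) : Prop :=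
  ∃ a : A, IsIntegral OT a ∧ x = 1 + algebraMap K A c * a

theorem isIntegral_of_mem {A : Type*} [CommRing A] [Algebra K A] {c : K} (hc : c ∈ OT) :
    IsIntegral OT (algebraMap K A c) := by
  have h : algebraMap K A c = algebraMap OT A ⟨c, hc⟩ := rfl
  rw [h]
  exact isIntegral_algebraMap

theorem NearA.one {A : Type*} [CommRing A] [Algebra K A] {c : K} : NearA OT c (1 : A) :=
  ⟨0, isIntegral_zero, by rw [mul_zero, add_zero]⟩

theorem NearA.mul {A : Type*} [CommRing A] [Algebra K A] {c : K} (hc : c ∈ OT) {x y : A}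
    (hx : NearA OT c x) (hy : NearA OT c y) : NearA OT c (x * y) := by
  obtain ⟨a, ha, rfl⟩ := hx
  obtain ⟨b, hb, rfl⟩ := hy
  refine ⟨a + b + algebraMap K A c * a * b, ?_, by ring⟩
  exact (ha.add hb).add (((isIntegral_of_mem hc).mul ha).mul hb)

theorem NearA.pow {A : Type*} [CommRing A] [Algebra K A] {c : K} (hc : c ∈ OT) {x : A}
    (hx : NearA OT c x) (m : ℕ) : NearA OT c (x ^ m) := by
  induction m with
  | zero => rw [pow_zero]; exact NearA.one
  | succ m ih => rw [pow_succ]; exact ih.mul hc hx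

theorem NearA.multiset_prod {A : Type*} [CommRing A] [Algebra K A] {c : K} (hc : c ∈ OT)
    (s : Multiset A) (h : ∀ x ∈ s, NearA OT c x) : NearA OT c s.prod := by
  induction s using Multiset.induction_on with
  | empty => rw [Multiset.prod_zero]; exact NearA.one
  | cons a s ih =>
    rw [Multiset.prod_cons]
    exact (h a (Multiset.mem_cons_self a s)).mul hc
      (ih fun x hx => h x (Multiset.mem_cons_of_mem hx))

theorem NearA.map {A B : Type*} [CommRing A] [Algebra K A] [CommRing B] [Algebra K B]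
    (φ : A →ₐ[K] B) {c : K} {x : A} (hx : NearA OT c x) : NearA OT c (φ x) := by
  obtain ⟨a, ha, rfl⟩ := hx
  refine ⟨φ a, ?_, by rw [map_add, map_one, map_mul, AlgHom.commutes]⟩
  exact ha.map (φ.restrictScalars OT)

theorem NearA.mono {A : Type*} [CommRing A] [Algebra K A] {c e : K} (he : e ∈ OT) {x : A}
    (hx : NearA OT (c * e) x) : NearA OT c x := by
  obtain ⟨a, ha, rfl⟩ := hx
  exact ⟨algebraMap K A e * a, (isIntegral_of_mem he).mul ha, by rw [map_mul, mul_assoc]⟩

/-- A root of the minimal polynomial of a near element is near. -/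
theorem near_root {F M Ω : Type*} [Field F] [Field M] [Field Ω] [Algebra K F] [Algebra F M]
    [Algebra K M] [IsScalarTower K F M] [Algebra F Ω] [Algebra K Ω] [IsScalarTower K F Ω] {c : K}
    (hc : c ≠ 0) {y : M} (hy : NearA OT c y) {z : Ω} (hz : aeval z (minpoly F y) = 0) :
    NearA OT c z := by
  obtain ⟨a, ⟨p, hp, hpa⟩, rfl⟩ := hy
  have hcM : algebraMap K M c ≠ 0 := (_root_.map_ne_zero _).2 hc
  have hcΩ : algebraMap K Ω c ≠ 0 := (_root_.map_ne_zero _).2 hc
  -- the polynomial `p ((X - 1) / c)`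
  set q : K[X] := (p.map OT.subtype).comp (C c⁻¹ * (X - 1)) with hq
  have h1 : aeval (1 + algebraMap K M c * a) q = 0 := by
    rw [hq, aeval_def, eval₂_comp]
    have h2 : eval₂ (algebraMap K M) (1 + algebraMap K M c * a) (C c⁻¹ * (X - 1)) = a := by
      rw [eval₂_mul, eval₂_C, eval₂_sub, eval₂_X, eval₂_one, map_inv₀, add_sub_cancel_left,
        inv_mul_cancel_left₀ hcM]
    rw [h2, eval₂_map]
    exact hpa
  have h3 : minpoly F (1 + algebraMap K M c * a) ∣ q.map (algebraMap K F) := by
    apply minpoly.dvd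
    rw [aeval_map_algebraMap]
    exact h1
  have h4 : aeval z (q.map (algebraMap K F)) = 0 := by
    obtain ⟨r, hr⟩ := h3
    rw [hr, map_mul, hz, zero_mul]
  rw [aeval_map_algebraMap] at h4
  refine ⟨(algebraMap K Ω c)⁻¹ * (z - 1), ⟨p, hp, ?_⟩, ?_⟩
  · rw [hq, aeval_def, eval₂_comp] at h4
    have h5 : eval₂ (algebraMap K Ω) z (C c⁻¹ * (X - 1)) = (algebraMap K Ω c)⁻¹ * (z - 1) := by
      rw [eval₂_mul, eval₂_C, eval₂_sub, eval₂_X, eval₂_one, map_inv₀]
    rw [h5, eval₂_map] at h4
    exact h4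
  · rw [mul_inv_cancel_left₀ hcΩ]; ring

/-- **The norm of a near element is near.** -/
theorem near_norm {F M : Type} [Field F] [Field M] [Algebra K F] [Algebra F M] [Algebra K M]
    [IsScalarTower K F M] [FiniteDimensional F M] {c : K} (hc : c ∈ OT) {y : M}
    (hy : Near OT M c y) : Near OT F c (Algebra.norm F y) := by
  by_cases hc0 : c = 0
  · obtain ⟨a, -, rfl⟩ := hy
    rw [hc0, map_zero, zero_mul, add_zero, map_one]
    exact ⟨0, (isIntegral_zero : IsIntegral OT (0 : F)), by rw [mul_zero, add_zero]⟩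
  let Ω := AlgebraicClosure F
  have h1 : NearA OT c (algebraMap F Ω (Algebra.norm F y)) := by
    rw [Algebra.norm_eq_prod_roots (F := Ω) (IsAlgClosed.splits _)]
    refine NearA.pow hc (NearA.multiset_prod hc _ fun z hz => ?_) _
    exact near_root hc0 (F := F) hy (mem_aroots'.1 hz).2
  obtain ⟨b, hb, hbe⟩ := h1
  have hcΩ : algebraMap K Ω c ≠ 0 := (_root_.map_ne_zero _).2 hc0
  have hcF : algebraMap K F c ≠ 0 := (_root_.map_ne_zero _).2 hc0
  set a0 : F := (algebraMap K F c)⁻¹ * (Algebra.norm F y - 1) with ha0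
  have h2 : algebraMap F Ω a0 = b := by
    rw [ha0, map_mul, map_inv₀, map_sub, map_one, ← IsScalarTower.algebraMap_apply K F Ω, hbe,
      add_sub_cancel_left, inv_mul_cancel_left₀ hcΩ]
  have h3 : IsIntegral OT a0 := by
    have h4 : IsIntegral OT (algebraMap F Ω a0) := by rw [h2]; exact hb
    exact (isIntegral_algebraMap_iff (algebraMap F Ω).injective).1 h4
  exact ⟨a0, h3, by rw [ha0, mul_inv_cancel_left₀ hcF]; ring⟩

end

section abv

variable {K D : Type} [Field K] [DivisionRing D] [Algebra K D] {OT : Subring K}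

/-- Integral elements have absolute value at most one. -/
theorem abv_le_one {ν : AbsoluteValue D ℝ} (hu : ∀ x y, ν (x + y) ≤ max (ν x) (ν y))
    (hO : ∀ a ∈ OT, ν (algebraMap K D a) ≤ 1) {b : D} {p : OT[X]} (hp : p.Monic)
    (hb : (p.map OT.subtype).aeval b = 0) : ν b ≤ 1 := by
  by_contra hcon
  push Not at hcon
  have hb0 : 0 < ν b := one_pos.trans hcon
  have hsum : ∀ (s : Finset ℕ) (g : ℕ → D) (m : ℝ), 0 ≤ m → (∀ i ∈ s, ν (g i) ≤ m) →
      ν (∑ i ∈ s, g i) ≤ m := by
    classical
    intro s g m hm h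
    induction s using Finset.induction_on with
    | empty => rw [Finset.sum_empty, map_zero]; exact hm
    | insert i s his ih =>
      rw [Finset.sum_insert his]
      exact (hu _ _).trans (max_le (h i (Finset.mem_insert_self _ _))
        (ih fun j hj => h j (Finset.mem_insert_of_mem hj)))
  set m := p.natDegree with hm
  have hm' : (p.map OT.subtype).natDegree = m := hp.natDegree_map _
  rw [aeval_eq_sum_range, hm', Finset.sum_range_succ] at hb
  have h1 : (p.map OT.subtype).coeff m = 1 := by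
    rw [coeff_map, hm, hp.coeff_natDegree, map_one]
  rw [h1, one_smul] at hb
  have h2 : b ^ m = -∑ i ∈ Finset.range m, (p.map OT.subtype).coeff i • b ^ i := by
    rw [eq_neg_iff_add_eq_zero, add_comm]; exact hb
  rcases Nat.eq_zero_or_pos m with h0 | h0
  · rw [h0, Finset.range_zero, Finset.sum_empty, neg_zero, pow_zero] at h2
    exact one_ne_zero h2
  · have h3 : ν (b ^ m) ≤ ν b ^ (m - 1) := by
      rw [h2, AbsoluteValue.map_neg]
      refine hsum _ _ _ (pow_nonneg hb0.le _) fun i hi => ?_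
      rw [Algebra.smul_def, map_mul, map_pow]
      have h4 : ν (algebraMap K D ((p.map OT.subtype).coeff i)) ≤ 1 := by
        rw [coeff_map]
        exact hO _ (p.coeff i).2
      calc ν (algebraMap K D ((p.map OT.subtype).coeff i)) * ν b ^ i ≤ 1 * ν b ^ i :=
            mul_le_mul_of_nonneg_right h4 (pow_nonneg hb0.le _)
        _ = ν b ^ i := one_mul _
        _ ≤ ν b ^ (m - 1) := pow_le_pow_right₀ hcon.le (by
            have := Finset.mem_range.1 hi; omega)
    rw [map_pow] at h3
    have h5 : ν b ^ (m - 1) < ν b ^ m := pow_lt_pow_right₀ hcon (by omega)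
    exact absurd h3 (not_le.2 h5)

/-- A near element of a subfield is close to one. -/
theorem abv_near_le {ν : AbsoluteValue D ℝ} (hu : ∀ x y, ν (x + y) ≤ max (ν x) (ν y))
    (hO : ∀ a ∈ OT, ν (algebraMap K D a) ≤ 1) {L : Type} [Field L] [Algebra K L]
    (φ : L →ₐ[K] D) {c : K} {x : L} (hx : Near OT L c x) :
    ν (φ x - 1) ≤ ν (algebraMap K D c) := by
  obtain ⟨a, ⟨p, hp, hpa⟩, rfl⟩ := hx
  have h1 : ν (φ a) ≤ 1 := by
    refine abv_le_one hu hO hp ?_
    have h2 : aeval (φ a) (p.map OT.subtype) = φ (aeval a (p.map OT.subtype)) :=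
      aeval_algHom_apply φ a _
    rw [h2]
    have h3 : aeval a (p.map OT.subtype) = 0 := by
      rw [aeval_def, eval₂_map]
      exact hpa
    rw [h3, map_zero]
  rw [map_add, map_one, add_sub_cancel_left, map_mul, AlgHom.commutes, map_mul]
  exact mul_le_of_le_one_right (ν.nonneg _) h1

end abv

end Vale.Agent.P011.H327.TN
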