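import Vale.Agent.P011.H699.Odd.NearL

/-!
# The norm of a separable extension is open, without completions

`OT` is a subring of `K`, `π` an element of its Jacobson radical whose powers divide everything.
An element of `R` which is close to one is the product of the norm of an element of `C` close to
one and of an element which is as close to one as we want.
-/

open Module Polynomial

set_option linter.unusedSectionVars false

namespace Vale.Agent.P011.H327.Opn

open Vale.Agent.P011.H699.Odd (Near Itg)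

variable {K : Type} [Field K] {OT : Subring K}

/-- `π` is in the Jacobson radical of `OT` and its powers divide everything. -/
structure Unf (OT : Subring K) (π : K) : Prop where
  mem : π ∈ OT
  ne : π ≠ 0
  inv : ∀ x ∈ OT, 1 + π * x ≠ 0 ∧ (1 + π * x)⁻¹ ∈ OT
  arch : ∀ d : K, d ≠ 0 → ∃ m : ℕ, π ^ m / d ∈ OT

/-- **Inverses of elements close to one.** -/
theorem Unf.itg_inv {π : K} (h : Unf OT π) {R : Type} [Field R] [Algebra K R] {a : R}
    (ha : Itg OT R a) : 1 + algebraMap K R π * a ≠ 0 ∧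
      Itg OT R (1 + algebraMap K R π * a)⁻¹ := by
  let i1 : Algebra OT R := ((algebraMap K R).comp OT.subtype).toAlgebra
  let O : Subalgebra OT R := integralClosure OT R
  let p : OT := ⟨π, h.mem⟩
  have hmem : algebraMap OT O p ∈ Ideal.jacobson (⊥ : Ideal O) := by
    rw [Ideal.jacobson, Ideal.mem_sInf]
    intro M hM
    have hM' : M.IsMaximal := hM.2
    have h1 : (M.comap (algebraMap OT O)).IsMaximal :=
      Ideal.isMaximal_comap_of_isIntegral_of_isMaximal M
    have h2 : p ∈ Ideal.jacobson (⊥ : Ideal OT) := by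
      rw [Ideal.mem_jacobson_bot]
      intro y
      obtain ⟨h3, h4⟩ := h.inv y y.2
      refine IsUnit.of_mul_eq_one ⟨(1 + π * y)⁻¹, h4⟩ ?_
      apply Subtype.ext
      change (π * (y : K) + 1) * (1 + π * y)⁻¹ = 1
      rw [add_comm (π * (y : K)), mul_inv_cancel₀ h3]
    rw [Ideal.jacobson, Ideal.mem_sInf] at h2
    exact h2 ⟨bot_le, h1⟩
  have haO : a ∈ O := ha
  rw [Ideal.mem_jacobson_bot] at hmem
  obtain ⟨b, hb⟩ := (hmem ⟨a, haO⟩).exists_right_inv
  have h5 : (algebraMap K R π * a + 1) * (b : R) = 1 := congrArg (fun t : O => (t : R)) hb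
  rw [add_comm] at h5
  have h6 : 1 + algebraMap K R π * a ≠ 0 := fun h0 => by
    rw [h0, zero_mul] at h5
    exact zero_ne_one h5
  refine ⟨h6, ?_⟩
  have h7 : (1 + algebraMap K R π * a)⁻¹ = b := by
    rw [inv_eq_of_mul_eq_one_right h5]
  rw [h7]
  exact b.2

/-- A multiple of every element is integral. -/
theorem Unf.exists_itg {π : K} (h : Unf OT π) {R : Type} [Field R] [Algebra K R] {w : R}
    (hw : IsIntegral K w) : ∃ b ∈ OT, b ≠ 0 ∧ Itg OT R (algebraMap K R b * w) := by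
  classical
  set P := minpoly K w with hP
  have hone : ∀ c : K, ∃ m : ℕ, c * π ^ m ∈ OT := by
    intro c
    by_cases hc : c = 0
    · exact ⟨0, by rw [hc, zero_mul]; exact zero_mem _⟩
    · obtain ⟨m, hm⟩ := h.arch c⁻¹ (inv_ne_zero hc)
      refine ⟨m, ?_⟩
      rwa [div_inv_eq_mul, mul_comm] at hm
  choose e he using hone
  obtain ⟨M, hM⟩ : ∃ M : ℕ, ∀ i ≤ P.natDegree, e (P.coeff i) ≤ M :=
    ⟨(Finset.range (P.natDegree + 1)).sup fun i => e (P.coeff i), fun i hi =>
      Finset.le_sup (f := fun i => e (P.coeff i)) (Finset.mem_range.2 (by omega))⟩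
  have hb : ∀ i ≤ P.natDegree, P.coeff i * π ^ M ∈ OT := by
    intro i hi
    have h1 : M = e (P.coeff i) + (M - e (P.coeff i)) := by have := hM i hi; omega
    rw [h1, pow_add, ← mul_assoc]
    exact mul_mem (he _) (pow_mem h.mem _)
  have hbO : π ^ M ∈ OT := pow_mem h.mem _
  have hmon : P.Monic := minpoly.monic hw
  refine ⟨π ^ M, hbO, pow_ne_zero _ h.ne, ?_⟩
  set S := P.scaleRoots (π ^ M) with hS
  have hSm : S.Monic := (monic_scaleRoots_iff _).2 hmon
  have hSc : (↑S.coeffs : Set K) ⊆ OT := by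
    intro c hc
    rw [Finset.mem_coe, mem_coeffs_iff] at hc
    obtain ⟨i, hi, rfl⟩ := hc
    have hi' : i ≤ P.natDegree := by
      rw [← natDegree_scaleRoots P (π ^ M)]
      exact le_natDegree_of_mem_supp i hi
    rw [coeff_scaleRoots]
    rcases Nat.lt_or_ge i P.natDegree with h1 | h1
    · have h2 : P.natDegree - i = (P.natDegree - i - 1) + 1 := by omega
      rw [h2, pow_succ', ← mul_assoc]
      exact mul_mem (hb i hi') (pow_mem hbO _)
    · have h2 : i = P.natDegree := le_antisymm hi' h1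
      rw [h2, Nat.sub_self, pow_zero, mul_one, hmon.coeff_natDegree]
      exact one_mem _
  refine ⟨S.toSubring OT hSc, (monic_toSubring _ _ _).2 hSm, ?_⟩
  rw [← eval₂_map, map_toSubring, hS]
  have h3 := scaleRoots_aeval_eq_zero (p := P) (a := w) (r := π ^ M) (minpoly.aeval K w)
  rwa [aeval_def] at h3

/-- A product of elements `1 + e x`. -/
theorem prod_one_add {Ω : Type} [Field Ω] [Algebra K Ω] {ι : Type} (s : Finset ι) (e : Ω)
    (x : ι → Ω) (he : Itg OT Ω e) (hx : ∀ i ∈ s, Itg OT Ω (x i)) :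
    ∃ P : Ω, Itg OT Ω P ∧ Itg OT Ω (∑ i ∈ s, x i) ∧
      ∏ i ∈ s, (1 + e * x i) = 1 + e * ∑ i ∈ s, x i + e ^ 2 * P := by
  classical
  induction s using Finset.induction_on with
  | empty =>
    refine ⟨0, Itg.zero, ?_, by simp⟩
    rw [Finset.sum_empty]
    exact Itg.zero
  | insert a s ha ih =>
    obtain ⟨P, hP, hS, h⟩ := ih fun i hi => hx i (Finset.mem_insert_of_mem hi)
    have hxa := hx a (Finset.mem_insert_self a s)
    refine ⟨P + x a * (∑ i ∈ s, x i) + e * (x a * P), ?_, ?_, ?_⟩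
    · exact Itg.add (Itg.add hP (Itg.mul hxa hS)) (Itg.mul he (Itg.mul hxa hP))
    · rw [Finset.sum_insert ha]
      exact Itg.add hxa hS
    · rw [Finset.prod_insert ha, h, Finset.sum_insert ha]
      ring

section ext

variable {R C : Type} [Field R] [Field C] [Algebra K R] [Algebra K C] [Algebra R C]
  [IsScalarTower K R C] [FiniteDimensional R C] [Algebra.IsSeparable R C]

/-- **The norm of `1 + e w`.** -/
theorem norm_one_add {e : R} {w : C} (he : Itg OT R e) (hw : Itg OT C w) :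
    ∃ s : R, Itg OT R s ∧
      Algebra.norm R (1 + algebraMap R C e * w) = 1 + e * Algebra.trace R C w + e ^ 2 * s := by
  classical
  by_cases he0 : e = 0
  · refine ⟨0, Itg.zero, ?_⟩
    rw [he0]
    simp
  set Ω := AlgebraicClosure R with hΩ
  have hN := Algebra.norm_eq_prod_embeddings R Ω (1 + algebraMap R C e * w)
  have hT := trace_eq_sum_embeddings (K := R) Ω (x := w)
  have h1 : ∀ σ : C →ₐ[R] Ω, σ (1 + algebraMap R C e * w) = 1 + algebraMap R Ω e * σ w := by
    intro σ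
    rw [map_add, map_one, map_mul, AlgHom.commutes]
  have h2 : Itg OT Ω (algebraMap R Ω e) := Itg.map (IsScalarTower.toAlgHom K R Ω) he
  obtain ⟨P, hP, -, h3⟩ := prod_one_add (OT := OT) (Finset.univ : Finset (C →ₐ[R] Ω))
    (algebraMap R Ω e) (fun σ => σ w) h2 fun σ _ => by
      have h4 : Itg OT Ω ((σ.restrictScalars K) w) := Itg.map (σ.restrictScalars K) hw
      exact h4
  have h5 : algebraMap R Ω (Algebra.norm R (1 + algebraMap R C e * w)) =
      1 + algebraMap R Ω e * algebraMap R Ω (Algebra.trace R C w) +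
        (algebraMap R Ω e) ^ 2 * P := by
    rw [hN, hT, ← h3]
    exact Finset.prod_congr rfl fun σ _ => h1 σ
  have he2 : algebraMap R Ω e ≠ 0 := (_root_.map_ne_zero _).2 he0
  refine ⟨(Algebra.norm R (1 + algebraMap R C e * w) - 1 - e * Algebra.trace R C w) / e ^ 2,
    ?_, ?_⟩
  · refine Itg.of_map (IsScalarTower.toAlgHom K R Ω) (algebraMap R Ω).injective ?_
    have h6 : (IsScalarTower.toAlgHom K R Ω)
        ((Algebra.norm R (1 + algebraMap R C e * w) - 1 - e * Algebra.trace R C w) / e ^ 2)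
        = P := by
      change algebraMap R Ω _ = P
      rw [map_div₀, map_sub, map_sub, h5, map_one, map_mul, map_pow, div_eq_iff (pow_ne_zero 2 he2)]
      ring
    rw [h6]
    exact hP
  · rw [mul_div_cancel₀ _ (pow_ne_zero 2 he0)]
    ring

/-- **One step of the approximation.** -/
theorem step {π b c' r : K} (h : Unf OT π) (hb : b ∈ OT) (hc : c' ∈ OT) (hr : r ∈ OT)
    {w : C} (hw : Itg OT C w) (hwt : Algebra.trace R C w = algebraMap K R b) {z : R}
    (hz : Near OT R (b ^ 2 * π * c' * r) z) :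
    ∃ (y : C) (z₁ : R), y ≠ 0 ∧ z₁ ≠ 0 ∧ Near OT C c' y ∧
      Near OT R (b ^ 2 * π * c' * (r * π)) z₁ ∧ z = Algebra.norm R y * z₁ := by
  obtain ⟨a, ha, rfl⟩ := hz
  set f : K →+* R := algebraMap K R with hf
  have hfb : Itg OT R (f b) := Itg.alg hb
  have hfc : Itg OT R (f c') := Itg.alg hc
  have hfr : Itg OT R (f r) := Itg.alg hr
  have hfπ : Itg OT R (f π) := Itg.alg h.mem
  set e : R := f b * f π * f c' * f r * a with he
  have hei : Itg OT R e := Itg.mul (Itg.mul (Itg.mul (Itg.mul hfb hfπ) hfc) hfr) ha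
  obtain ⟨s, hs, hN⟩ := norm_one_add (C := C) hei hw
  rw [hwt] at hN
  -- `z` is a unit
  obtain ⟨hz0, hzi⟩ := h.itg_inv (R := R) (a := f b ^ 2 * f c' * f r * a)
    (by
      rw [pow_two]
      exact Itg.mul (Itg.mul (Itg.mul (Itg.mul hfb hfb) hfc) hfr) ha)
  have hz : 1 + f π * (f b ^ 2 * f c' * f r * a) = 1 + f (b ^ 2 * π * c' * r) * a := by
    simp only [map_mul, map_pow]
    ring
  rw [← hf, hz] at hz0 hzi
  set z : R := 1 + f (b ^ 2 * π * c' * r) * a with hzdef
  -- the quotient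
  set v : R := f c' * f r * a ^ 2 * s * z⁻¹ with hv
  have hvi : Itg OT R v := by
    rw [hv, pow_two]
    exact Itg.mul (Itg.mul (Itg.mul (Itg.mul hfc hfr) (Itg.mul ha ha)) hs) hzi
  have hw1 : Itg OT R (f (b ^ 2 * c' * r * π) * v) := Itg.mul (Itg.alg (mul_mem (mul_mem
    (mul_mem (pow_mem hb 2) hc) hr) h.mem)) hvi
  obtain ⟨hu0, hui⟩ := h.itg_inv (R := R) hw1
  rw [← hf] at hu0 hui
  set u : R := 1 + f π * (f (b ^ 2 * c' * r * π) * v) with hu
  have hNz : Algebra.norm R (1 + algebraMap R C e * w) = z * u := by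
    rw [hN, hu, hv, hzdef]
    rw [← hzdef]
    have h1 : z * (1 + f π * (f (b ^ 2 * c' * r * π) * (f c' * f r * a ^ 2 * s * z⁻¹))) =
        z + f π * (f (b ^ 2 * c' * r * π) * (f c' * f r * a ^ 2 * s)) * (z * z⁻¹) := by ring
    rw [h1, mul_inv_cancel₀ hz0, hzdef, he]
    simp only [map_mul, map_pow]
    ring
  have hy0 : (1 + algebraMap R C e * w) ≠ 0 := by
    intro h0
    rw [h0, Algebra.norm_zero] at hNz
    exact mul_ne_zero hz0 hu0 hNz.symm
  refine ⟨1 + algebraMap R C e * w, u⁻¹, hy0, inv_ne_zero hu0, ?_, ?_, ?_⟩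
  · refine ⟨algebraMap R C (f b * f π * f r * a) * w, Itg.mul ?_ hw, ?_⟩
    · exact Itg.map (IsScalarTower.toAlgHom K R C)
        (Itg.mul (Itg.mul (Itg.mul hfb hfπ) hfr) ha)
    · rw [IsScalarTower.algebraMap_apply K R C c', ← mul_assoc, ← map_mul, ← hf, he]
      congr 3
      ring
  · refine ⟨-(v * u⁻¹), ?_, ?_⟩
    · have h1 : -(v * u⁻¹) = f (-1) * (v * u⁻¹) := by
        rw [map_neg, map_one]
        ring
      rw [h1]
      exact Itg.mul (Itg.alg (neg_mem (one_mem OT))) (Itg.mul hvi hui)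
    · have h2 : f (b ^ 2 * π * c' * (r * π)) * v = u - 1 := by
        rw [hu]
        simp only [map_mul, map_pow]
        ring
      rw [mul_neg, ← mul_assoc, h2, sub_mul, mul_inv_cancel₀ hu0]
      ring
  · rw [hNz, mul_assoc, mul_inv_cancel₀ hu0, mul_one]

/-- **The norm is open.** -/
theorem norm_open [FiniteDimensional K C] {π c' : K} (h : Unf OT π) (hc0 : c' ≠ 0)
    (hc : c' ∈ OT) :
    ∃ d : K, d ≠ 0 ∧ ∀ z : R, Near OT R d z → ∀ d' : K, d' ≠ 0 →
      ∃ (y : C) (z₁ : R), y ≠ 0 ∧ z₁ ≠ 0 ∧ Near OT C c' y ∧ Near OT R d' z₁ ∧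
        z = Algebra.norm R y * z₁ := by
  obtain ⟨w0, hw0⟩ := Algebra.trace_surjective R C 1
  obtain ⟨b, hb, hb0, hw⟩ := h.exists_itg (Algebra.IsIntegral.isIntegral (R := K) w0)
  set w : C := algebraMap K C b * w0 with hwdef
  have hwt : Algebra.trace R C w = algebraMap K R b := by
    rw [hwdef, IsScalarTower.algebraMap_apply K R C, ← Algebra.smul_def, map_smul, hw0,
      smul_eq_mul, mul_one]
  refine ⟨b ^ 2 * π * c', mul_ne_zero (mul_ne_zero (pow_ne_zero 2 hb0) h.ne) hc0,
    fun z hz d' hd' => ?_⟩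
  have key : ∀ m : ℕ, ∃ (y : C) (z₁ : R), y ≠ 0 ∧ z₁ ≠ 0 ∧ Near OT C c' y ∧
      Near OT R (b ^ 2 * π * c' * π ^ m) z₁ ∧ z = Algebra.norm R y * z₁ := by
    intro m
    induction m with
    | zero =>
      refine ⟨1, z, one_ne_zero, ?_, Near.one, by rwa [pow_zero, mul_one], by
        rw [map_one, one_mul]⟩
      obtain ⟨a, ha, rfl⟩ := hz
      obtain ⟨h1, -⟩ := h.itg_inv (R := R) (a := algebraMap K R (b ^ 2 * c') * a)
        (Itg.mul (Itg.alg (mul_mem (pow_mem hb 2) hc)) ha)
      have h2 : 1 + algebraMap K R π * (algebraMap K R (b ^ 2 * c') * a) =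
          1 + algebraMap K R (b ^ 2 * π * c') * a := by
        simp only [map_mul, map_pow]
        ring
      rwa [h2] at h1
    | succ m ih =>
      obtain ⟨y, z₁, hy, -, hny, hnz, rfl⟩ := ih
      obtain ⟨y', z₂, hy', hz₂, hny', hnz', h1⟩ :=
        step h hb hc (pow_mem h.mem m) hw hwt hnz
      refine ⟨y * y', z₂, mul_ne_zero hy hy', hz₂, hny.mul hc hny', ?_, ?_⟩
      · have h2 : π ^ (m + 1) = π ^ m * π := pow_succ π m
        rwa [h2]
      · rw [h1, map_mul]
        ring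
  obtain ⟨m, hm⟩ := h.arch d' hd'
  obtain ⟨y, z₁, hy, hz₁, hny, hnz, h1⟩ := key m
  refine ⟨y, z₁, hy, hz₁, hny, ?_, h1⟩
  refine Near.mono (c := d') (c' := π ^ m / d' * (b ^ 2 * π * c')) (mul_mem hm (mul_mem
    (mul_mem (pow_mem hb 2) h.mem) hc)) ?_
  have h2 : d' * (π ^ m / d' * (b ^ 2 * π * c')) = b ^ 2 * π * c' * π ^ m := by
    field_simp
  rwa [h2]

end ext

end Vale.Agent.P011.H327.Opn
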