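import Vale.Agent.P011.H263.RealF
import Vale.Agent.P011.H627.Odd.GlueP

/-!
# The extension over the real places, number fields

`H627.Odd.ModRealNF` from `H263.real_ext`.
-/

open Module

namespace Vale.Agent.P011.H327

theorem modReal_nf {n : ℕ} (hn : 0 < n) : H627.Odd.ModRealNF n := by
  intro k K D _ _ _ _ _ _ _ _ _ _ _ d s hS hdeg M B T _ hT E _ W ch hc P h1 h2
  obtain ⟨V, h3, _, h4⟩ := H263.real_ext hS hn hdeg B (T := T) (T₀ := H627.Odd.T0 d T)
    (fun p hp => by obtain ⟨v, hv, _⟩ := hT.fin p hp; exact ⟨v, hv⟩)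
    (fun p => H627.Odd.mem_T0) hc h1 h2
  exact ⟨V, h3, h4⟩

end Vale.Agent.P011.H327
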