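import Vale.Agent.P011.H327.NearN

/-!
# The arithmetic step from the two-field norm lemma and the split elements
-/

namespace Vale.Agent.P011.H327.TN

open Module Polynomial
open Vale.Agent.P011.H699.Odd

section

variable {K D : Type} [Field K] [DivisionRing D] [Algebra K D]

/-- The field generated by an element of a division algebra. -/
theorem exists_field [FiniteDimensional K D] (x : D) :
    ∃ (_ : Fact (Irreducible (minpoly K x))) (φ : AdjoinRoot (minpoly K x) →ₐ[K] D),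
      (∀ y, φ y ∈ Algebra.adjoin K {x}) ∧
      finrank K (AdjoinRoot (minpoly K x)) = (minpoly K x).natDegree ∧
      FiniteDimensional K (AdjoinRoot (minpoly K x)) := by
  have hint : IsIntegral K x := IsIntegral.of_finite K x
  have hirr : Irreducible (minpoly K x) := minpoly.irreducible hint
  have hf : Fact (Irreducible (minpoly K x)) := ⟨hirr⟩
  have hker : ∀ a : K[X], a ∈ Ideal.span {minpoly K x} → aeval x a = 0 := by
    intro a ha
    obtain ⟨b, rfl⟩ := Ideal.mem_span_singleton'.1 ha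
    rw [map_mul, minpoly.aeval, mul_zero]
  let φ : AdjoinRoot (minpoly K x) →ₐ[K] D := Ideal.Quotient.liftₐ _ (aeval x) hker
  have hne : minpoly K x ≠ 0 := hirr.ne_zero
  refine ⟨hf, φ, fun y => ?_, ?_, ?_⟩
  · obtain ⟨p, rfl⟩ := AdjoinRoot.mk_surjective y
    have h1 : φ (AdjoinRoot.mk (minpoly K x) p) = aeval x p := rfl
    rw [h1]
    exact aeval_mem_adjoin_singleton K x
  · rw [(AdjoinRoot.powerBasis hne).finrank, AdjoinRoot.powerBasis_dim]
  · exact (AdjoinRoot.powerBasis hne).finite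

variable [StarRing K] [StarRing D]

/-- **The arithmetic step.** -/
theorem stepH_of [FiniteDimensional K D] {J : Type} {n : ℕ} {N : D →* K} {ι : Type}
    {ν : ι → AbsoluteValue D ℝ} {Sp : J → K[X] → Prop} {OT : Subring K}
    (hn : n ≠ 0) (hN : Rn n N) (hν : Fa ν)
    (hSp1 : ∀ j, Sp j 1) (hSpm : ∀ j P Q, Sp j P → Sp j Q → Sp j (P * Q))
    (hO : ∀ i, ∀ a ∈ OT, ν i (algebraMap K D a) ≤ 1)
    (hsm : ∀ δ : ℝ, 0 < δ → ∃ e ∈ OT, e ≠ 0 ∧ ∀ i, ν i (algebraMap K D e) < δ)
    (hS : SplE n N ν Sp) {R R' : Type} [Field R] [Algebra K R] [Field R'] [Algebra K R']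
    [Algebra R R'] [IsScalarTower K R R'] [FiniteDimensional K R] [FiniteDimensional K R']
    {c c' d₀ : K} (hd₀ : d₀ ∈ OT) (hd₀0 : d₀ ≠ 0) (hTN : TN OT Sp R R' c c') :
    StepH N ν (Near OT K d₀) R R' (Near OT R c) (Near OT R' c') := by
  classical
  intro x hx hPx hs hhs ε hε
  obtain ⟨j, hj⟩ := hTN x hx hPx
  obtain ⟨g, hg, hgb, hgs⟩ := hS j hs hhs ε hε
  set P : K[X] := ∏ h ∈ hs, minpoly K ((h * g : Dˣ) : D) with hP
  have hSP : Sp j P := by
    rw [hP]
    exact Finset.prod_induction _ (Sp j) (fun a b => hSpm j a b) (hSp1 j)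
      fun h hh => (hgs h hh).2
  obtain ⟨e, heO, he0, heν⟩ := hsm ε hε
  let M : Type := (P.map (algebraMap K R)).SplittingField
  obtain ⟨x₁, y₁, hx₁, hy₁, hxe, hx₁n, hy₁n⟩ := hj M P hSP inferInstance (d₀ * e)
    (mul_ne_zero hd₀0 he0)
  have hKM : FiniteDimensional K M := FiniteDimensional.trans K R M
  have hRR' : FiniteDimensional R R' := FiniteDimensional.right K R R'
  have hcO : d₀ * e ∈ OT := mul_mem hd₀ heO
  have hnK : Algebra.norm K y₁ * Algebra.norm K x₁ = Algebra.norm K x := by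
    rw [hxe, map_mul, Algebra.norm_norm, Algebra.norm_norm, mul_comm]
  have hsplit : ((P.map (algebraMap K R)).map (algebraMap R M)).Splits :=
    SplittingField.splits _
  refine ⟨g, hg, hgb, x₁, hx₁, hx₁n, fun h hh => ?_⟩
  obtain ⟨hfact, φ, hφ, hfr, hfin⟩ := exists_field (K := K) ((h * g : Dˣ) : D)
  set Q : K[X] := minpoly K ((h * g : Dˣ) : D) with hQ
  have hdn : Q.natDegree = n := (hgs h hh).1
  have hmap : (P.map (algebraMap K R)).map (algebraMap R M) = P.map (algebraMap K M) := by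
    rw [Polynomial.map_map, ← IsScalarTower.algebraMap_eq]
  rw [hmap] at hsplit
  have hP0 : P.map (algebraMap K M) ≠ 0 := by
    rw [Polynomial.map_ne_zero_iff (algebraMap K M).injective, hP, Finset.prod_ne_zero_iff]
    intro a _
    exact minpoly.ne_zero (IsIntegral.of_finite K _)
  have hQs : (Q.map (algebraMap K M)).Splits :=
    hsplit.of_dvd hP0 (Polynomial.map_dvd _ (Finset.dvd_prod_of_mem _ hh))
  obtain ⟨r, hr⟩ : ∃ r : M, aeval r Q = 0 := by
    obtain ⟨r, hr⟩ := hQs.exists_eval_eq_zero (by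
      rw [degree_map, degree_eq_natDegree hfact.out.ne_zero, hdn]
      exact_mod_cast hn)
    exact ⟨r, by rw [aeval_def, ← eval_map]; exact hr⟩
  let ψ : AdjoinRoot Q →ₐ[K] M := AdjoinRoot.liftAlgHom Q (Algebra.ofId K M) r hr
  let i1 : Algebra (AdjoinRoot Q) M := ψ.toRingHom.toAlgebra
  have i2 : IsScalarTower K (AdjoinRoot Q) M :=
    IsScalarTower.of_algebraMap_eq fun a => (ψ.commutes a).symm
  have i3 : FiniteDimensional (AdjoinRoot Q) M := FiniteDimensional.right K (AdjoinRoot Q) M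
  have hNz : N (φ (Algebra.norm (AdjoinRoot Q) y₁)) = Algebra.norm K y₁ := by
    rw [hN.fld (AdjoinRoot Q) φ _ (hfr.trans hdn), Algebra.norm_norm]
  refine ⟨φ (Algebra.norm (AdjoinRoot Q) y₁), ?_, hφ _, ?_, ?_, fun i => ?_⟩
  · rw [_root_.map_ne_zero]
    exact Algebra.norm_ne_zero_iff.mpr hy₁
  · rw [hNz]
    exact hnK
  · rw [hNz]
    exact NearA.mono heO (near_norm (F := K) hcO hy₁n)
  · have h1 : Near OT (AdjoinRoot Q) (d₀ * e) (Algebra.norm (AdjoinRoot Q) y₁) :=
      near_norm hcO hy₁n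
    have h2 := abv_near_le (hν.ult i) (hO i) φ h1
    refine h2.trans_lt ?_
    rw [map_mul, map_mul]
    exact (mul_le_of_le_one_left ((ν i).nonneg _) (hO i d₀ hd₀)).trans_lt (heν i)

end

end Vale.Agent.P011.H327.TN
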