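import Mathlib

/-!
# Towers of cyclic steps of prime degree

For a finite separable extension `E / K` inside a normal extension `Ω / K` and a prime `p` there
is a chain `K ≤ R 0 ≤ R 1 ≤ ... ≤ R f` of finite separable intermediate fields, `[R 0 : K]` prime
to `p`, `E ≤ R f`, every step Galois of degree `p`.
-/

namespace Vale.Agent.P011.H327.Tower

open Module IntermediateField

/-- A chain of subgroups of order `p ^ j`. -/
theorem exists_subgroup_chain {G : Type*} [Group G] [Finite G] (p : ℕ) [hp : Fact p.Prime]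
    (f : ℕ) (hf : p ^ f ∣ Nat.card G) :
    ∃ Q : ℕ → Subgroup G, Monotone Q ∧ Q 0 = ⊥ ∧ ∀ j ≤ f, Nat.card (Q j) = p ^ j := by
  classical
  have step : ∀ j : ℕ, ∀ H : Subgroup G, ∃ H' : Subgroup G, H ≤ H' ∧
      (j + 1 ≤ f → Nat.card H = p ^ j → Nat.card H' = p ^ (j + 1)) := by
    intro j H
    by_cases h1 : j + 1 ≤ f
    · by_cases h2 : Nat.card H = p ^ j
      · obtain ⟨H', h3, h4⟩ := Sylow.exists_subgroup_card_pow_succ
          (Nat.pow_dvd_of_le_of_pow_dvd h1 hf) h2
        exact ⟨H', h4, fun _ _ => h3⟩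
      · exact ⟨H, le_rfl, fun _ h => absurd h h2⟩
    · exact ⟨H, le_rfl, fun h _ => absurd h h1⟩
  choose S hS1 hS2 using step
  let Q : ℕ → Subgroup G := fun j => Nat.rec ⊥ (fun i H => S i H) j
  have hQ0 : Q 0 = ⊥ := rfl
  have hQs : ∀ j, Q (j + 1) = S j (Q j) := fun _ => rfl
  refine ⟨Q, monotone_nat_of_le_succ (fun j => ?_), hQ0, ?_⟩
  · rw [hQs]; exact hS1 _ _
  · intro j
    induction j with
    | zero => intro _; rw [hQ0]; simp
    | succ j ih =>
      intro h
      rw [hQs]
      exact hS2 _ _ h (ih (by omega))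

/-- An intermediate field with `[L : F'] = p ^ j`, `[L : F] = p ^ (j+1)` is Galois over `F`. -/
theorem isGalois_of_finrank {F L : Type*} [Field F] [Field L] [Algebra F L]
    [FiniteDimensional F L] [IsGalois F L] (p : ℕ) [hp : Fact p.Prime] (j : ℕ)
    (F' : IntermediateField F L) (h1 : finrank F L = p ^ (j + 1)) (h2 : finrank F' L = p ^ j) :
    IsGalois F F' ∧ finrank F F' = p := by
  have hpp : 0 < p := hp.out.pos
  have h3 : finrank F F' * p ^ j = p ^ (j + 1) := by
    rw [← h1, ← h2]; exact finrank_mul_finrank F F' L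
  have h4 : finrank F F' = p := by
    rw [pow_succ, mul_comm] at h3
    exact Nat.eq_of_mul_eq_mul_left (pow_pos hpp j) h3
  have h5 : (fixingSubgroup F').index = p := by
    rw [← finrank_eq_fixingSubgroup_index]; exact h4
  have h6 : Nat.card Gal(L/F) = p ^ (j + 1) := by
    rw [IsGalois.card_aut_eq_finrank, h1]
  have h7 : (fixingSubgroup F').Normal := by
    apply Subgroup.normal_of_index_eq_minFac_card
    rw [h5, h6, Nat.pow_minFac (by omega), hp.out.minFac_eq]
  refine ⟨?_, h4⟩
  have h8 : IsGalois F (fixedField (fixingSubgroup F')) := inferInstance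
  rwa [IsGalois.fixedField_fixingSubgroup] at h8

/-- The order of the group of a normal closure divides the factorial of the degree. -/
theorem card_gal_dvd {K E L : Type*} [Field K] [Field E] [Field L] [Algebra K E] [Algebra K L]
    [FiniteDimensional K E] [Algebra.IsSeparable K E] [IsNormalClosure K E L] :
    Nat.card Gal(L/K) ∣ (finrank K E).factorial := by
  classical
  have h0 : Algebra.IsAlgebraic K E := inferInstance
  obtain ⟨hs, ht⟩ := (Algebra.IsAlgebraic.isNormalClosure_iff (F := K) (K := E) (L := L)).1 ‹_›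
  let A : Gal(L/K) →* Equiv.Perm (E →ₐ[K] L) :=
    { toFun := fun σ =>
        { toFun := fun φ => (σ : L →ₐ[K] L).comp φ
          invFun := fun φ => (σ.symm : L →ₐ[K] L).comp φ
          left_inv := fun φ => by ext x; simp
          right_inv := fun φ => by ext x; simp }
      map_one' := by ext φ x; rfl
      map_mul' := fun σ τ => by ext φ x; rfl }
  have hA : Function.Injective A := by
    rw [injective_iff_map_eq_one]
    intro σ hσ
    have h1 : ∀ φ : E →ₐ[K] L, φ.fieldRange ≤ fixedField (Subgroup.zpowers σ) := by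
      intro φ
      rw [le_iff_le, Subgroup.zpowers_le, IntermediateField.mem_fixingSubgroup_iff]
      rintro _ ⟨x, rfl⟩
      have h2 : A σ φ = φ := by rw [hσ]; rfl
      exact DFunLike.congr_fun h2 x
    have h3 : (⊤ : IntermediateField K L) ≤ fixedField (Subgroup.zpowers σ) := by
      rw [← ht, normalClosure_def]
      exact iSup_le h1
    rw [le_iff_le, Subgroup.zpowers_le, fixingSubgroup_top] at h3
    exact Subgroup.mem_bot.1 h3
  have h4 := Subgroup.card_dvd_of_injective A hA
  rwa [Nat.card_perm, AlgHom.natCard_of_splits K E L hs] at h4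

/-- The chain inside a finite Galois extension. -/
theorem chain {K L : Type*} [Field K] [Field L] [Algebra K L] [FiniteDimensional K L]
    [IsGalois K L] (p : ℕ) [hp : Fact p.Prime] :
    ∃ (f : ℕ) (R : ℕ → IntermediateField K L), Monotone R ∧ ¬ p ∣ finrank K (R 0) ∧
      R f = ⊤ ∧ p ^ f ∣ Nat.card Gal(L/K) ∧ ∀ i < f, ∀ h : R i ≤ R (i + 1),
        IsGalois (R i) (extendScalars h) ∧ finrank (R i) (extendScalars h) = p := by
  classical
  set G := Gal(L/K) with hG
  have hG0 : Nat.card G ≠ 0 := Nat.card_pos.ne'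
  set f := (Nat.card G).factorization p with hf
  have hfd : p ^ f ∣ Nat.card G := Nat.ordProj_dvd _ _
  obtain ⟨Q, hQm, hQ0, hQc⟩ := exists_subgroup_chain (G := G) p f hfd
  have hfin : ∀ j ≤ f, finrank (fixedField (Q j)) L = p ^ j := by
    intro j hj
    rw [finrank_fixedField_eq_card, hQc j hj]
  refine ⟨f, fun i => fixedField (Q (f - i)), ?_, ?_, ?_, hfd, ?_⟩
  · intro i j hij
    exact fixedField_antitone (hQm (Nat.sub_le_sub_left hij f))
  · intro hd
    have h1 : finrank K (fixedField (Q (f - 0))) * finrank (fixedField (Q (f - 0))) L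
        = finrank K L := finrank_mul_finrank K _ L
    rw [hfin _ (Nat.sub_le _ _), Nat.sub_zero, ← IsGalois.card_aut_eq_finrank K L] at h1
    have hd' : p ∣ finrank K (fixedField (Q f)) := by simpa only [Nat.sub_zero] using hd
    have h2 : p ^ (f + 1) ∣ Nat.card G := by
      rw [← h1, pow_succ, mul_comm]
      exact Nat.mul_dvd_mul hd' dvd_rfl
    exact Nat.pow_succ_factorization_not_dvd hG0 hp.out h2
  · show fixedField (Q (f - f)) = ⊤
    rw [Nat.sub_self, hQ0, fixedField_bot]
  · intro i hi h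
    refine isGalois_of_finrank p (f - (i + 1)) (extendScalars h) ?_ ?_
    · show finrank (fixedField (Q (f - i))) L = _
      rw [hfin _ (Nat.sub_le _ _)]
      congr 1; omega
    · exact hfin (f - (i + 1)) (Nat.sub_le _ _)

/-- Transport of a step along `lift`. -/
theorem lift_step {K Ω : Type*} [Field K] [Field Ω] [Algebra K Ω] {L : IntermediateField K Ω}
    {A B : IntermediateField K L} (h : A ≤ B) (h' : lift A ≤ lift B)
    (hg : IsGalois A (extendScalars h)) :
    IsGalois (lift A) (extendScalars h') ∧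
      finrank (lift A) (extendScalars h') = finrank A (extendScalars h) := by
  let f : A ≃+* lift A := (liftAlgEquiv A).toRingEquiv
  let g : extendScalars h ≃+* extendScalars h' := (liftAlgEquiv B).toRingEquiv
  have hc : (algebraMap (lift A) (extendScalars h')).comp (f : A →+* lift A)
      = (g : extendScalars h →+* extendScalars h').comp (algebraMap A (extendScalars h)) := by
    ext x; rfl
  refine ⟨IsGalois.of_equiv_equiv hc, ?_⟩
  exact (Algebra.finrank_eq_of_equiv_equiv f g hc).symm

/-- The tower inside a normal extension. -/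
theorem exists_tower {K Ω : Type*} [Field K] [Field Ω] [Algebra K Ω] [Normal K Ω]
    (E : IntermediateField K Ω) [FiniteDimensional K E] [Algebra.IsSeparable K E]
    (p : ℕ) [hp : Fact p.Prime] :
    ∃ (f : ℕ) (R : ℕ → IntermediateField K Ω), Monotone R ∧
      (∀ i, FiniteDimensional K (R i)) ∧ (∀ i, Algebra.IsSeparable K (R i)) ∧
      ¬ p ∣ finrank K (R 0) ∧ E ≤ R f ∧ p ^ f ∣ (finrank K E).factorial ∧
      ∀ i < f, ∀ h : R i ≤ R (i + 1),
        IsGalois (R i) (extendScalars h) ∧ finrank (R i) (extendScalars h) = p := by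
  have hn : Normal K (normalClosure K E Ω) := normalClosure.normal K E Ω
  have hs : Algebra.IsSeparable K (normalClosure K E Ω) := by
    rw [← le_separableClosure_iff]
    rw [normalClosure_le_iff]
    intro i
    have : Algebra.IsSeparable K i.fieldRange :=
      (AlgEquiv.Algebra.isSeparable (AlgEquiv.ofInjectiveField i))
    exact le_separableClosure K Ω _
  have hg : IsGalois K (normalClosure K E Ω) := ⟨⟩
  obtain ⟨f, R, h1, h2, h3, h3', h4⟩ := chain (K := K) (L := normalClosure K E Ω) p
  have hd : p ^ f ∣ (finrank K E).factorial := by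
    have : Nonempty (E →ₐ[K] Ω) := ⟨E.val⟩
    have : IsNormalClosure K E (normalClosure K E Ω) := inferInstance
    exact h3'.trans card_gal_dvd
  have hmono : Monotone fun i => lift (R i) := by
    intro i j hij x hx
    obtain ⟨y, hy, rfl⟩ := hx
    exact ⟨y, h1 hij hy, rfl⟩
  refine ⟨f, fun i => lift (R i), hmono, fun i => ?_, fun i => ?_, ?_, ?_, hd, ?_⟩
  · exact LinearEquiv.finiteDimensional (liftAlgEquiv (R i)).toLinearEquiv
  · exact AlgEquiv.Algebra.isSeparable (liftAlgEquiv (R i))
  · rw [← (liftAlgEquiv (R 0)).toLinearEquiv.finrank_eq]; exact h2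
  · intro x hx
    have h5 : x ∈ normalClosure K E Ω := IntermediateField.le_normalClosure E hx
    show x ∈ lift (R f)
    rw [h3]
    exact (mem_lift (⟨x, h5⟩ : normalClosure K E Ω)).2 mem_top
  · intro i hi h
    have h6 := h4 i hi (h1 (Nat.le_succ i))
    have h7 := lift_step (h1 (Nat.le_succ i)) h h6.1
    exact ⟨h7.1, h7.2.trans h6.2⟩

/-- A cyclic step. -/
theorem isCyclic_step {F F' : Type*} [Field F] [Field F'] [Algebra F F'] (p : ℕ)
    [hp : Fact p.Prime] [IsGalois F F'] (h : finrank F F' = p) : IsCyclic Gal(F'/F) := by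
  have : FiniteDimensional F F' := by
    apply FiniteDimensional.of_finrank_pos
    rw [h]; exact hp.out.pos
  apply isCyclic_of_prime_card (p := p)
  rw [IsGalois.card_aut_eq_finrank, h]

/-- Downward induction along the tower: `P j R` is the claim for a field `R` from which `j`
steps lead to the top. -/
theorem tower_induction {K Ω : Type*} [Field K] [Field Ω] [Algebra K Ω] [Normal K Ω]
    (E : IntermediateField K Ω) [FiniteDimensional K E] [Algebra.IsSeparable K E]
    (p : ℕ) [hp : Fact p.Prime] (P : ℕ → IntermediateField K Ω → Prop)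
    (h0 : ∀ R : IntermediateField K Ω, FiniteDimensional K R → Algebra.IsSeparable K R →
      E ≤ R → P 0 R)
    (h1 : ∀ (j : ℕ) (R R' : IntermediateField K Ω) (h : R ≤ R'), FiniteDimensional K R →
      FiniteDimensional K R' → Algebra.IsSeparable K R → Algebra.IsSeparable K R' →
      IsGalois R (extendScalars h) → finrank R (extendScalars h) = p → P j R' → P (j + 1) R) :
    ∃ (f : ℕ) (R : IntermediateField K Ω), p ^ f ∣ (finrank K E).factorial ∧
      FiniteDimensional K R ∧ Algebra.IsSeparable K R ∧ ¬ p ∣ finrank K R ∧ P f R := by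
  obtain ⟨f, R, hm, hfd, hsep, hR0, hE, hd, hst⟩ := exists_tower E p
  refine ⟨f, R 0, hd, hfd 0, hsep 0, hR0, ?_⟩
  have key : ∀ j ≤ f, P j (R (f - j)) := by
    intro j
    induction j with
    | zero => intro _; exact h0 _ (hfd _) (hsep _) hE
    | succ j ih =>
      intro hj
      have h2 : f - (j + 1) + 1 = f - j := by omega
      have h3 : R (f - (j + 1)) ≤ R (f - (j + 1) + 1) := hm (Nat.le_succ _)
      obtain ⟨h4, h5⟩ := hst (f - (j + 1)) (by omega) h3
      refine h1 j _ _ h3 (hfd _) (hfd _) (hsep _) (hsep _) h4 h5 ?_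
      rw [h2]
      exact ih (by omega)
  have h6 := key f le_rfl
  rwa [Nat.sub_self] at h6

/-- A subgroup of `ℤ` containing `n` and, for every prime `p ∣ n`, a number prime to `p`. -/
theorem one_mem_of_primes (S : AddSubgroup ℤ) {n : ℕ} (h1 : (n : ℤ) ∈ S)
    (h2 : ∀ p : ℕ, p.Prime → p ∣ n → ∃ m : ℕ, ¬ p ∣ m ∧ (m : ℤ) ∈ S) : (1 : ℤ) ∈ S := by
  obtain ⟨a, ha⟩ := Int.subgroup_cyclic S
  have hmem : ∀ x : ℤ, x ∈ S ↔ a ∣ x := by
    intro x
    rw [ha, AddSubgroup.mem_closure_singleton]
    constructor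
    · rintro ⟨z, rfl⟩; exact ⟨z, by simp [mul_comm]⟩
    · rintro ⟨z, rfl⟩; exact ⟨z, by simp [mul_comm]⟩
  rw [hmem]
  by_contra hcon
  have h3 : a.natAbs ≠ 1 := by
    intro h; exact hcon ((Int.natAbs_dvd).1 (by rw [h]; exact one_dvd _))
  obtain ⟨p, hp, hpa⟩ := Nat.exists_prime_and_dvd h3
  have h4 : ∀ x : ℕ, (x : ℤ) ∈ S → p ∣ x := by
    intro x hx
    exact hpa.trans (Int.natAbs_dvd_natAbs.2 ((hmem _).1 hx) |>.trans (by simp))
  obtain ⟨m, hm1, hm2⟩ := h2 p hp (h4 n h1)
  exact hm1 (h4 m hm2)

/-- The same for powers of an element of a group. -/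
theorem mem_of_pow_mem {G : Type*} [Group G] (S : Subgroup G) (u : G) {n : ℕ}
    (h1 : u ^ n ∈ S) (h2 : ∀ p : ℕ, p.Prime → p ∣ n → ∃ m : ℕ, ¬ p ∣ m ∧ u ^ m ∈ S) :
    u ∈ S := by
  let T : AddSubgroup ℤ :=
    { carrier := {j : ℤ | u ^ j ∈ S}
      zero_mem' := by simp [S.one_mem]
      add_mem' := fun {a b} ha hb => by
        show u ^ (a + b) ∈ S
        rw [zpow_add]; exact S.mul_mem ha hb
      neg_mem' := fun {a} ha => by
        show u ^ (-a) ∈ S
        rw [zpow_neg]; exact S.inv_mem ha }
  have h3 : (1 : ℤ) ∈ T := by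
    apply one_mem_of_primes T (n := n)
    · show u ^ (n : ℤ) ∈ S
      rw [zpow_natCast]; exact h1
    · intro p hp hpn
      obtain ⟨m, hm1, hm2⟩ := h2 p hp hpn
      refine ⟨m, hm1, ?_⟩
      show u ^ (m : ℤ) ∈ S
      rw [zpow_natCast]; exact hm2
  have h4 : u ^ (1 : ℤ) ∈ S := h3
  rwa [zpow_one] at h4

end Vale.Agent.P011.H327.Tower
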